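import Mathlib

/-! Common sublists of concatenations of blocks. -/

set_option autoImplicit false

namespace Crest.Agent.R210
open List

lemma lattice (M : ℕ) (X Y : ℕ → List ℕ) (len Φ : ℕ → ℕ → ℝ)
    (hlen : ∀ s s' z, s < M → s' < M → z <+ X s → z <+ Y s' → (z.length : ℝ) ≤ len s s')
    (h0 : ∀ s s', s ≤ M → s' ≤ M → 0 ≤ Φ s s')
    (h1 : ∀ s s', s < M → s' < M → len s s' + Φ (s + 1) s' ≤ Φ s s')
    (h2 : ∀ s s', s < M → s' < M → len s s' + Φ s (s' + 1) ≤ Φ s s') :
    ∀ n s s', s ≤ M → s' ≤ M → (M - s) + (M - s') = n → ∀ z : List ℕ,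
      z <+ (range' s (M - s)).flatMap X → z <+ (range' s' (M - s')).flatMap Y →
      (z.length : ℝ) ≤ Φ s s' := by
  intro n
  induction n with
  | zero =>
    intro s s' hs hs' hn z hz _
    rw [show M - s = 0 by omega] at hz
    simp only [range'_zero, flatMap_nil, sublist_nil] at hz
    subst hz
    simpa using h0 s s' hs hs'
  | succ n ih =>
    intro s s' hs hs' hn z hz hz'
    rcases hs.eq_or_lt with h | hs1
    · rw [show M - s = 0 by omega] at hz
      simp only [range'_zero, flatMap_nil, sublist_nil] at hz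
      subst hz
      simpa using h0 s s' hs hs'
    rcases hs'.eq_or_lt with h | hs1'
    · rw [show M - s' = 0 by omega] at hz'
      simp only [range'_zero, flatMap_nil, sublist_nil] at hz'
      subst hz'
      simpa using h0 s s' hs hs'
    have e1 : (range' s (M - s)).flatMap X = X s ++ (range' (s + 1) (M - (s + 1))).flatMap X := by
      rw [show M - s = M - (s + 1) + 1 by omega, range'_succ, flatMap_cons]
    have e2 : (range' s' (M - s')).flatMap Y =
        Y s' ++ (range' (s' + 1) (M - (s' + 1))).flatMap Y := by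
      rw [show M - s' = M - (s' + 1) + 1 by omega, range'_succ, flatMap_cons]
    obtain ⟨a, b, rfl, ha, hb⟩ := sublist_append_iff.mp (e1 ▸ hz)
    obtain ⟨c, d, hcd, hc, hd⟩ := sublist_append_iff.mp (e2 ▸ hz')
    rcases append_eq_append_iff.mp hcd with ⟨e, rfl, rfl⟩ | ⟨e, rfl, rfl⟩
    · have t1 := hlen s s' a hs1 hs1' ha ((sublist_append_left a e).trans hc)
      have t2 := ih (s + 1) s' hs1 hs' (by omega) (e ++ d) hb
        (e2 ▸ ((sublist_append_right a e).trans hc).append hd)
      have := h1 s s' hs1 hs1'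
      rw [length_append]
      push_cast
      linarith
    · have t1 := hlen s s' c hs1 hs1' ((sublist_append_left c e).trans ha) hc
      have t2 := ih s (s' + 1) hs hs1' (by omega) (e ++ b)
        (e1 ▸ ((sublist_append_right c e).trans ha).append hb) hd
      have := h2 s s' hs1 hs1'
      rw [append_assoc, length_append]
      push_cast
      linarith

lemma succ_div_mod (k s : ℕ) (hk : 2 ≤ k) :
    ((s + 1) / k = s / k ∧ (s + 1) % k = s % k + 1) ∨
      ((s + 1) / k = s / k + 1 ∧ (s + 1) % k = 0 ∧ s % k + 1 = k) := by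
  have h1 := Nat.div_add_mod s k
  have h2 := Nat.mod_lt s (show k > 0 by omega)
  obtain ⟨t, ht⟩ : ∃ t, t = s / k := ⟨_, rfl⟩
  obtain ⟨i, hi⟩ : ∃ i, i = s % k := ⟨_, rfl⟩
  rw [← ht, ← hi] at h1 ⊢
  rw [← hi] at h2
  rcases Nat.lt_or_ge (i + 1) k with h | h
  · left
    rw [← h1, add_assoc, Nat.mul_add_div (by omega), Nat.mul_add_mod, Nat.div_eq_of_lt h,
      Nat.mod_eq_of_lt h]
    exact ⟨rfl, rfl⟩
  · right
    have h3 : s + 1 = k * (t + 1) := by rw [mul_add]; omega
    rw [h3, Nat.mul_div_cancel_left _ (by omega), Nat.mul_mod_right]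
    exact ⟨rfl, rfl, by omega⟩

open Classical in
theorem block_far (k b g : ℕ) (hk : 2 ≤ k) (X Y : ℕ → List ℕ) (ℓ F : ℝ) (hF : 0 ≤ F) (hFl : F ≤ ℓ)
    (good : ℕ → ℕ → ℕ → Prop)
    (hg : ∀ t t', t ≤ b → t' ≤ b → ((Finset.range k).filter (good t t')).card ≤ g)
    (hlen : ∀ s s' z, z <+ X s → z <+ Y s' → (z.length : ℝ) ≤
      if s % k = s' % k then (if good (s / k) (s' / k) (s % k) then ℓ else F) else 0)
    (z : List ℕ) (hz : z <+ (List.range (b * k)).flatMap X) (hz' : z <+ (List.range (b * k)).flatMap Y) :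
    (z.length : ℝ) ≤ F * (b * k + 1 / 2) + (ℓ - F) * ((2 * b + 1) * g) := by
  obtain ⟨Γ, hΓ⟩ : ∃ Γ : ℕ → ℕ → ℕ → ℕ, Γ = fun t t' j =>
      ((Finset.range k).filter (fun i => j ≤ i ∧ good t t' i)).card := ⟨_, rfl⟩
  have hΓg : ∀ t t' j, t ≤ b → t' ≤ b → Γ t t' j ≤ g := by
    intro t t' j ht ht'
    rw [hΓ]
    exact (Finset.card_le_card (Finset.monotone_filter_right _ fun i _ hi => hi.2)).trans
      (hg t t' ht ht')
  have hΓm : ∀ t t' j j', j ≤ j' → Γ t t' j' ≤ Γ t t' j := by
    intro t t' j j' h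
    rw [hΓ]
    exact Finset.card_le_card (Finset.monotone_filter_right _ fun i _ hi => ⟨h.trans hi.1, hi.2⟩)
  have hΓs : ∀ t t' j, j < k → good t t' j → Γ t t' (j + 1) + 1 ≤ Γ t t' j := by
    intro t t' j hj hgood
    rw [hΓ]
    refine Finset.card_lt_card ⟨Finset.monotone_filter_right _ fun i _ hi =>
      ⟨by omega, hi.2⟩, fun h => ?_⟩
    have := h (Finset.mem_filter.mpr ⟨Finset.mem_range.mpr hj, le_rfl, hgood⟩)
    simp at this
  have hdiv : ∀ s, s ≤ b * k → s / k ≤ b := fun s hs => Nat.div_le_of_le_mul (by rwa [mul_comm])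
  have hL : 0 ≤ ℓ - F := by linarith
  have key := lattice (b * k) X Y
    (fun s s' => if s % k = s' % k then (if good (s / k) (s' / k) (s % k) then ℓ else F) else 0)
    (fun s s' => F * ((2 * (b * k) - s - s') / 2 + if s % k = s' % k then 1 / 2 else 0) +
      (ℓ - F) * (g * ((b - (s / k : ℕ)) + (b - (s' / k : ℕ))) +
        Γ (s / k) (s' / k) (max (s % k) (s' % k))))
    (fun s s' z _ _ => hlen s s' z) ?_ ?_ ?_ _ 0 0 (Nat.zero_le _) (Nat.zero_le _) rfl z
    (by simpa [range_eq_range'] using hz) (by simpa [range_eq_range'] using hz')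
  · refine key.trans ?_
    have h1 : (Γ 0 0 0 : ℝ) ≤ g := by exact_mod_cast hΓg 0 0 0 (Nat.zero_le _) (Nat.zero_le _)
    simp only [Nat.zero_mod, Nat.zero_div, if_true, max_self, Nat.cast_zero, sub_zero]
    refine add_le_add (le_of_eq (by ring)) (mul_le_mul_of_nonneg_left (by linarith) hL)
  · intro s s' hs hs'
    have h1 : (s : ℝ) ≤ b * k := by exact_mod_cast hs
    have h2 : (s' : ℝ) ≤ b * k := by exact_mod_cast hs'
    have h3 : ((s / k : ℕ) : ℝ) ≤ b := by exact_mod_cast hdiv s hs
    have h4 : ((s' / k : ℕ) : ℝ) ≤ b := by exact_mod_cast hdiv s' hs'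
    refine add_nonneg (mul_nonneg hF (add_nonneg (by linarith) (by split_ifs <;> norm_num)))
      (mul_nonneg hL (add_nonneg (mul_nonneg (Nat.cast_nonneg _) (by linarith))
        (Nat.cast_nonneg _)))
  · intro s s' hs hs'
    have hi := Nat.mod_lt s (show k > 0 by omega)
    have hA : F * (if s % k = s' % k then 1 else 0) +
        F * ((2 * (b * k) - (s + 1 : ℕ) - s') / 2 + if (s + 1) % k = s' % k then 1 / 2 else 0) ≤
        F * ((2 * (b * k) - s - s') / 2 + if s % k = s' % k then 1 / 2 else 0) := by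
      rw [← mul_add]
      refine mul_le_mul_of_nonneg_left ?_ hF
      push_cast
      rcases succ_div_mod k s hk with ⟨-, h⟩ | ⟨-, h, h'⟩ <;> split_ifs <;>
        linarith
    have hB : ((if s % k = s' % k ∧ good (s / k) (s' / k) (s % k) then 1 else 0 : ℕ) +
        Γ ((s + 1) / k) (s' / k) (max ((s + 1) % k) (s' % k)) + g * (s / k) : ℕ) ≤
        Γ (s / k) (s' / k) (max (s % k) (s' % k)) + g * ((s + 1) / k) := by
      rcases succ_div_mod k s hk with ⟨h, h'⟩ | ⟨h, h', h''⟩
      · rw [h, h']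
        split_ifs with hc
        · have := hΓs _ _ _ hi hc.2
          rw [← hc.1, max_self, max_eq_left (Nat.le_add_right _ 1)]
          omega
        · have := hΓm (s / k) (s' / k) (max (s % k) (s' % k)) (max (s % k + 1) (s' % k)) (by omega)
          omega
      · have h3 := hΓg ((s + 1) / k) (s' / k) (max ((s + 1) % k) (s' % k)) (hdiv _ hs)
          (hdiv _ hs'.le)
        rw [h] at h3 ⊢
        rw [mul_add, mul_one]
        split_ifs with hc
        · have := hΓs _ _ _ hi hc.2
          rw [← hc.1, max_self]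
          rw [← hc.1] at h3
          omega
        · omega
    have hB' := mul_le_mul_of_nonneg_left (show _ ≤ _ from (Nat.cast_le (α := ℝ)).mpr hB) hL
    push_cast at hB' hA ⊢
    by_cases h1 : s % k = s' % k
    · by_cases h2 : good (s / k) (s' / k) (s % k)
      · rw [if_pos h1] at hA
        rw [if_pos ⟨h1, h2⟩] at hB'
        rw [if_pos h1, if_pos h2]
        linarith
      · rw [if_pos h1] at hA
        rw [if_neg (fun h => h2 h.2)] at hB'
        rw [if_pos h1, if_neg h2]
        linarith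
    · rw [if_neg h1] at hA
      rw [if_neg (fun h => h1 h.1)] at hB'
      rw [if_neg h1]
      linarith
  · intro s s' hs hs'
    have hi := Nat.mod_lt s' (show k > 0 by omega)
    have hA : F * (if s % k = s' % k then 1 else 0) +
        F * ((2 * (b * k) - s - (s' + 1 : ℕ)) / 2 + if s % k = (s' + 1) % k then 1 / 2 else 0) ≤
        F * ((2 * (b * k) - s - s') / 2 + if s % k = s' % k then 1 / 2 else 0) := by
      rw [← mul_add]
      refine mul_le_mul_of_nonneg_left ?_ hF
      push_cast
      rcases succ_div_mod k s' hk with ⟨-, h⟩ | ⟨-, h, h'⟩ <;> split_ifs <;>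
        linarith
    have hB : ((if s % k = s' % k ∧ good (s / k) (s' / k) (s % k) then 1 else 0 : ℕ) +
        Γ (s / k) ((s' + 1) / k) (max (s % k) ((s' + 1) % k)) + g * (s' / k) : ℕ) ≤
        Γ (s / k) (s' / k) (max (s % k) (s' % k)) + g * ((s' + 1) / k) := by
      rcases succ_div_mod k s' hk with ⟨h, h'⟩ | ⟨h, h', h''⟩
      · rw [h, h']
        split_ifs with hc
        · have := hΓs _ _ _ (hc.1 ▸ hi) hc.2
          rw [← hc.1, max_self, max_eq_right (Nat.le_add_right _ 1)]
          omega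
        · have := hΓm (s / k) (s' / k) (max (s % k) (s' % k)) (max (s % k) (s' % k + 1)) (by omega)
          omega
      · have h3 := hΓg (s / k) ((s' + 1) / k) (max (s % k) ((s' + 1) % k)) (hdiv _ hs.le)
          (hdiv _ hs')
        rw [h] at h3 ⊢
        rw [mul_add, mul_one]
        split_ifs with hc
        · have := hΓs _ _ _ (hc.1 ▸ hi) hc.2
          rw [← hc.1, max_self]
          omega
        · omega
    have hB' := mul_le_mul_of_nonneg_left (show _ ≤ _ from (Nat.cast_le (α := ℝ)).mpr hB) hL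
    push_cast at hB' hA ⊢
    by_cases h1 : s % k = s' % k
    · by_cases h2 : good (s / k) (s' / k) (s % k)
      · rw [if_pos h1] at hA
        rw [if_pos ⟨h1, h2⟩] at hB'
        rw [if_pos h1, if_pos h2]
        linarith
      · rw [if_pos h1] at hA
        rw [if_neg (fun h => h2 h.2)] at hB'
        rw [if_pos h1, if_neg h2]
        linarith
    · rw [if_neg h1] at hA
      rw [if_neg (fun h => h1 h.1)] at hB'
      rw [if_neg h1]
      linarith

end Crest.Agent.R210
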