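import Mathlib

/-! Negative type kernels and a spectral comparison on cyclic groups. -/

set_option autoImplicit false

namespace Crest.Agent.R210
open Finset

/-- `d` satisfies every linear inequality satisfied by squared differences of real functions -/
def NT {Ω : Type} (d : Ω → Ω → ℝ) : Prop :=
  ∀ (ι : Type) [Fintype ι] (c : ι → ℝ) (x y : ι → Ω),
    (∀ G : Ω → ℝ, 0 ≤ ∑ i, c i * (G (x i) - G (y i)) ^ 2) → 0 ≤ ∑ i, c i * d (x i) (y i)

lemma NT.comp {Ω Ω' : Type} {d : Ω → Ω → ℝ} (h : NT d) (φ : Ω' → Ω) : NT (fun x y => d (φ x) (φ y)) := by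
  intro ι _ c x y hG
  refine h ι c (fun i => φ (x i)) (fun i => φ (y i)) fun G => hG fun z => G (φ z)

open MeasureTheory in
lemma integral_cut (a b : ℝ) :
    Integrable (fun s : ℝ => ((if s < a then (1 : ℝ) else 0) - if s < b then 1 else 0) ^ 2) ∧
    ∫ s : ℝ, ((if s < a then (1 : ℝ) else 0) - if s < b then 1 else 0) ^ 2 = |a - b| := by
  have key : (fun s : ℝ => ((if s < a then (1 : ℝ) else 0) - if s < b then 1 else 0) ^ 2) =
      (Set.Ico (min a b) (max a b)).indicator 1 := by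
    ext s
    simp only [Set.indicator, Set.mem_Ico, min_le_iff, lt_max_iff, Pi.one_apply]
    by_cases h1 : s < a <;> by_cases h2 : s < b <;> simp [h1, h2, not_lt.mp, not_le.mpr]
  rw [key]
  refine ⟨(integrable_indicator_iff measurableSet_Ico).mpr (by simp [Pi.one_def]), ?_⟩
  rw [integral_indicator_one measurableSet_Ico, Real.volume_real_Ico, max_sub_min_eq_abs',
    max_eq_left (abs_nonneg _)]

open MeasureTheory in
lemma NT_abs {Ω : Type} (φ : Ω → ℝ) : NT (fun x y => |φ x - φ y|) := by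
  intro ι _ c x y hG
  simp_rw [fun i => (integral_cut (φ (x i)) (φ (y i))).2.symm, ← integral_const_mul]
  rw [← integral_finsetSum _ fun i _ => (integral_cut (φ (x i)) (φ (y i))).1.const_mul _]
  exact integral_nonneg fun s => hG fun z => if s < φ z then 1 else 0

lemma NT_l1 {Ω : Type} (f : Ω → lp (fun _ : ℕ => ℝ) 1) : NT (fun x y => ‖f x - f y‖) := by
  intro ι _ c x y hG
  have h1 : ∀ i, HasSum (fun n => c i * |f (x i) n - f (y i) n|) (c i * ‖f (x i) - f (y i)‖) := by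
    intro i
    have := lp.hasSum_norm (p := 1) (by simp) (f (x i) - f (y i))
    simp only [ENNReal.toReal_one, Real.rpow_one, lp.coeFn_sub, Pi.sub_apply,
      Real.norm_eq_abs] at this
    exact this.mul_left _
  exact (hasSum_sum fun i _ => h1 i).nonneg fun n => NT_abs (fun z => f z n) ι c x y hG

lemma plancherel (n : ℕ) [NeZero n] (φ : ZMod n → ℂ) :
    ∑ ξ : ZMod n, ‖∑ θ, φ θ * ZMod.stdAddChar (ξ * θ)‖ ^ 2 = n * ∑ θ, ‖φ θ‖ ^ 2 := by
  have h1 : ∀ z : ℂ, ((‖z‖ ^ 2 : ℝ) : ℂ) = z * starRingEnd ℂ z := fun z => by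
    rw [Complex.mul_conj, Complex.normSq_eq_norm_sq]
  apply Complex.ofReal_injective
  push_cast [← Complex.ofReal_pow]
  simp_rw [h1, map_sum, sum_mul_sum]
  rw [sum_comm, mul_sum]
  refine sum_congr rfl fun θ _ => ?_
  rw [sum_comm]
  have h2 : ∀ θ' : ZMod n, ∑ ξ : ZMod n, φ θ * ZMod.stdAddChar (ξ * θ) *
      starRingEnd ℂ (φ θ' * ZMod.stdAddChar (ξ * θ')) =
      if θ' = θ then (n : ℂ) * (φ θ * starRingEnd ℂ (φ θ')) else 0 := by
    intro θ'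
    have h3 := AddChar.sum_mulShift (θ - θ') (ZMod.isPrimitive_stdAddChar n)
    have h4 : ∀ ξ : ZMod n, φ θ * ZMod.stdAddChar (ξ * θ) *
        starRingEnd ℂ (φ θ' * ZMod.stdAddChar (ξ * θ')) =
        (φ θ * starRingEnd ℂ (φ θ')) * ZMod.stdAddChar (ξ * (θ - θ')) := by
      intro ξ
      rw [map_mul (starRingEnd ℂ), ← AddChar.map_neg_eq_conj, mul_sub, sub_eq_add_neg, AddChar.map_add_eq_mul]
      ring
    simp_rw [h4]
    rw [← mul_sum, h3]
    simp only [sub_eq_zero, ZMod.card, eq_comm (a := θ)]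
    split_ifs <;> simp [mul_comm]
  simp_rw [h2]
  simp

lemma circ_nonneg (n : ℕ) [NeZero n] {H : Type*} [Fintype H] (c : H → ℝ) (s : H → ℕ)
    (hc : ∀ ζ : ℂ, ζ ^ n = 1 → 0 ≤ ∑ h, c h * ‖ζ ^ s h - 1‖ ^ 2) (ψ : ZMod n → ℝ) :
    0 ≤ ∑ h, c h * ∑ θ, (ψ θ - ψ (θ + s h)) ^ 2 := by
  have hn : (0 : ℝ) < n := by exact_mod_cast NeZero.pos n
  have h1 : ∀ h, (n : ℝ) * ∑ θ, (ψ θ - ψ (θ + s h)) ^ 2 =
      ∑ ξ : ZMod n, ‖ZMod.stdAddChar (-ξ) ^ s h - 1‖ ^ 2 *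
        ‖∑ θ, (ψ θ : ℂ) * ZMod.stdAddChar (ξ * θ)‖ ^ 2 := by
    intro h
    have h2 := plancherel n (fun θ => ((ψ (θ + s h) - ψ θ : ℝ) : ℂ))
    simp only [Complex.norm_real, Real.norm_eq_abs, sq_abs] at h2
    rw [show ∑ θ, (ψ θ - ψ (θ + s h)) ^ 2 = ∑ θ, (ψ (θ + s h) - ψ θ) ^ 2 from
      sum_congr rfl fun θ _ => by ring, ← h2]
    refine sum_congr rfl fun ξ _ => ?_
    rw [← mul_pow, ← norm_mul]
    congr 2
    push_cast
    simp_rw [sub_mul]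
    rw [sum_sub_distrib, one_mul, mul_sum]
    congr 1
    refine Fintype.sum_equiv (Equiv.addRight (s h : ZMod n)) _ _ fun θ => ?_
    simp only [Equiv.coe_addRight]
    rw [← AddChar.map_nsmul_eq_pow, mul_left_comm, ← AddChar.map_add_eq_mul]
    congr 2
    rw [nsmul_eq_mul]; ring
  refine nonneg_of_mul_nonneg_right ?_ hn |> fun h => h
  rw [mul_comm, sum_mul]
  have h3 : ∑ h, (c h * ∑ θ, (ψ θ - ψ (θ + s h)) ^ 2) * n = ∑ ξ : ZMod n,
      (∑ h, c h * ‖ZMod.stdAddChar (-ξ) ^ s h - 1‖ ^ 2) *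
        ‖∑ θ, (ψ θ : ℂ) * ZMod.stdAddChar (ξ * θ)‖ ^ 2 := by
    simp_rw [sum_mul]
    rw [sum_comm]
    refine sum_congr rfl fun h _ => ?_
    rw [mul_assoc, mul_comm _ (n : ℝ), h1, mul_sum]
    exact sum_congr rfl fun ξ _ => by ring
  rw [h3]
  refine sum_nonneg fun ξ _ => mul_nonneg (hc _ ?_) (sq_nonneg _)
  rw [← AddChar.map_nsmul_eq_pow, nsmul_eq_mul, ZMod.natCast_self, zero_mul,
    AddChar.map_zero_eq_one]

lemma act_mod {Ω : Type*} (sig : ℕ → Ω → Ω) (hadd : ∀ a b x, sig (a + b) x = sig a (sig b x))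
    (n : ℕ) (hn : ∀ x, sig n x = x) (a : ℕ) (x : Ω) : sig (a % n) x = sig a x := by
  have h1 : ∀ m x, sig (a % n + n * m) x = sig (a % n) x := by
    intro m
    induction m with
    | zero => intro x; rfl
    | succ m ih => intro x; rw [mul_add, mul_one, ← add_assoc, hadd, hn, ih]
  rw [← h1 (a / n), Nat.mod_add_div]

lemma act_bij {Ω : Type*} [Finite Ω] (sig : ℕ → Ω → Ω) (h0 : ∀ x, sig 0 x = x)
    (hadd : ∀ a b x, sig (a + b) x = sig a (sig b x))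
    (n : ℕ) (hn0 : 0 < n) (hn : ∀ x, sig n x = x) (a : ℕ) : Function.Bijective (sig a) := by
  refine Finite.injective_iff_bijective.mp (Function.LeftInverse.injective
    (g := sig ((n - 1) * a)) fun x => ?_)
  rw [← hadd, ← act_mod sig hadd n hn, show (n - 1) * a + a = n * a by
    obtain ⟨m, rfl⟩ : ∃ m, n = m + 1 := ⟨n - 1, by omega⟩
    simp; ring, Nat.mul_mod_right, h0]

theorem act_nonneg {Ω : Type} [Fintype Ω] (sig : ℕ → Ω → Ω) (h0 : ∀ x, sig 0 x = x)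
    (hadd : ∀ a b x, sig (a + b) x = sig a (sig b x)) (n : ℕ) (hn0 : 0 < n)
    (hn : ∀ x, sig n x = x) {H : Type} [Fintype H] (c : H → ℝ) (s : H → ℕ)
    (hc : ∀ ζ : ℂ, ζ ^ n = 1 → 0 ≤ ∑ h, c h * ‖ζ ^ s h - 1‖ ^ 2) (d : Ω → Ω → ℝ) (hd : NT d) :
    0 ≤ ∑ h, c h * ∑ x, d x (sig (s h) x) := by
  have : NeZero n := ⟨hn0.ne'⟩
  have h1 := hd (H × Ω) (fun i => c i.1) (fun i => i.2) (fun i => sig (s i.1) i.2) (fun G => ?_)
  · rw [Fintype.sum_prod_type] at h1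
    simpa only [mul_sum] using h1
  rw [Fintype.sum_prod_type]
  simp only [← mul_sum]
  have hn' : (0 : ℝ) < n := by exact_mod_cast hn0
  have h2 : 0 ≤ ∑ x : Ω, ∑ h, c h * ∑ θ : ZMod n,
      (G (sig θ.val x) - G (sig (θ + s h).val x)) ^ 2 :=
    sum_nonneg fun x _ => circ_nonneg n c s hc fun θ => G (sig θ.val x)
  rw [sum_comm] at h2
  have h3 : ∀ h, ∑ x : Ω, c h * ∑ θ : ZMod n, (G (sig θ.val x) - G (sig (θ + s h).val x)) ^ 2 =
      n * (c h * ∑ x, (G x - G (sig (s h) x)) ^ 2) := by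
    intro h
    rw [← mul_sum, sum_comm, mul_left_comm]
    congr 1
    have h4 : ∀ θ : ZMod n, ∑ x : Ω, (G (sig θ.val x) - G (sig (θ + s h).val x)) ^ 2 =
        ∑ x, (G x - G (sig (s h) x)) ^ 2 := by
      intro θ
      refine Fintype.sum_bijective _ (act_bij sig h0 hadd n hn0 hn θ.val) _ _ fun x => ?_
      rw [ZMod.val_add, act_mod sig hadd n hn, ZMod.val_natCast, add_comm, hadd,
        act_mod sig hadd n hn]
    simp_rw [h4]
    simp
  simp_rw [h3] at h2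
  rw [← mul_sum] at h2
  exact nonneg_of_mul_nonneg_right h2 hn' |> fun h => h

lemma norm_sub_one_sq (z : ℂ) (hz : ‖z‖ = 1) : ‖z - 1‖ ^ 2 = 2 - 2 * z.re := by
  have h1 : z.re ^ 2 + z.im ^ 2 = 1 := by
    have := Complex.sq_norm z
    rw [hz, Complex.normSq_apply] at this
    linarith
  rw [Complex.sq_norm, Complex.normSq_apply]
  simp only [Complex.sub_re, Complex.one_re, Complex.sub_im, Complex.one_im]
  linarith

lemma sum_norm_sq (ζ : ℂ) (hζ : ‖ζ‖ = 1) (T : ℕ) :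
    ∑ t : Fin T, ‖ζ ^ (t : ℕ) - 1‖ ^ 2 = 2 * T - 2 * (∑ t ∈ range T, ζ ^ t).re := by
  rw [Fin.sum_univ_eq_sum_range (fun t => ‖ζ ^ t - 1‖ ^ 2), Complex.re_sum, mul_sum]
  rw [sum_congr rfl fun t _ => norm_sub_one_sq (ζ ^ t) (by rw [norm_pow, hζ, one_pow]),
    sum_sub_distrib]
  simp [mul_comm]

theorem multiplier {k : ℕ} (p : Fin k → ℕ) (q P w : ℕ) (hq : 0 < q) (hp : ∀ i, 0 < p i)
    (hcop : Pairwise fun i j => Nat.Coprime (p i) (p j)) (hqP : q ≤ P) (hpP : ∀ i, p i ≤ P)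
    (hw : 0 < w) (a : ℕ) (ζ : ℂ) (hζ : ζ ^ (q * ∏ i, p i) = 1) :
    ‖ζ ^ a - 1‖ ^ 2 ≤
      ∑ i, ∑ m : Fin (p i), 2 / w / p i * ‖ζ ^ (q * (∏ i, p i) / p i * m) - 1‖ ^ 2 +
      ∑ t : Fin (2 * P ^ w), 4 / (2 * P ^ w : ℕ) * ‖ζ ^ (t : ℕ) - 1‖ ^ 2 := by
  classical
  obtain ⟨n, hn⟩ : ∃ n, n = q * ∏ i, p i := ⟨_, rfl⟩
  rw [← hn] at hζ ⊢
  have hn0 : 0 < n := hn ▸ Nat.mul_pos hq (prod_pos fun i _ => hp i)
  have hζ1 : ‖ζ‖ = 1 := Complex.norm_eq_one_of_pow_eq_one hζ hn0.ne'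
  have hpn : ∀ i, p i ∣ n := fun i => hn ▸ Dvd.dvd.mul_left (dvd_prod_of_mem p (mem_univ i)) q
  have hA : 0 ≤ ∑ i, ∑ m : Fin (p i), 2 / w / p i * ‖ζ ^ (n / p i * m) - 1‖ ^ 2 :=
    sum_nonneg fun i _ => sum_nonneg fun m _ => by positivity
  have hB : 0 ≤ ∑ t : Fin (2 * P ^ w), 4 / (2 * P ^ w : ℕ) * ‖ζ ^ (t : ℕ) - 1‖ ^ 2 :=
    sum_nonneg fun t _ => by positivity
  by_cases h1 : ζ = 1
  · subst h1; simp
  have h4 : ‖ζ ^ a - 1‖ ^ 2 ≤ 4 := by
    have h5 : ‖ζ ^ a - 1‖ ≤ 2 := by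
      refine (norm_sub_le _ _).trans ?_
      rw [norm_pow, hζ1]; norm_num
    nlinarith [norm_nonneg (ζ ^ a - 1)]
  obtain ⟨S, hS⟩ : ∃ S : Finset (Fin k), S = univ.filter fun i => ζ ^ (n / p i) ≠ 1 := ⟨_, rfl⟩
  have hw' : (0 : ℝ) < w := by exact_mod_cast hw
  by_cases hSw : w ≤ S.card
  · have h5 : ∀ i ∈ S, ∑ m : Fin (p i), 2 / w / p i * ‖ζ ^ (n / p i * m) - 1‖ ^ 2 = (4 / w : ℝ) := by
      intro i hi
      rw [hS, mem_filter] at hi
      simp_rw [pow_mul]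
      rw [← mul_sum, sum_norm_sq _ (by rw [norm_pow, hζ1, one_pow]), geom_sum_eq hi.2, ← pow_mul,
        Nat.div_mul_cancel (hpn i), hζ]
      have : (0 : ℝ) < p i := by exact_mod_cast hp i
      simp only [sub_self, zero_div, Complex.zero_re, mul_zero, sub_zero]
      field_simp
      norm_num
    have h6 : ∑ i ∈ S, ∑ m : Fin (p i), 2 / w / p i * ‖ζ ^ (n / p i * m) - 1‖ ^ 2 ≤
        ∑ i, ∑ m : Fin (p i), 2 / w / p i * ‖ζ ^ (n / p i * m) - 1‖ ^ 2 :=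
      sum_le_sum_of_subset_of_nonneg (subset_univ _) fun i _ _ =>
        sum_nonneg fun m _ => by positivity
    rw [sum_congr rfl h5, sum_const, nsmul_eq_mul] at h6
    have h7 : (w : ℝ) ≤ S.card := by exact_mod_cast hSw
    have h8 : (4 : ℝ) ≤ S.card * (4 / w) := by
      rw [← mul_div_assoc, le_div_iff₀ hw']; linarith
    linarith
  · obtain ⟨o, ho⟩ : ∃ o, o = orderOf ζ := ⟨_, rfl⟩
    have hon : o ∣ n := ho ▸ orderOf_dvd_of_pow_eq_one hζ
    have ho0 : 0 < o := Nat.pos_of_dvd_of_pos hon hn0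
    obtain ⟨r, hr⟩ := hon
    have h5 : ∏ i ∈ Sᶜ, p i ∣ r := by
      refine Finset.prod_dvd_of_isRelPrime (fun i _ j _ hij =>
        Nat.coprime_iff_isRelPrime.mp (hcop hij)) fun i hi => ?_
      rw [hS, mem_compl, mem_filter] at hi
      have h6 : ζ ^ (n / p i) = 1 := by simpa using hi
      obtain ⟨r', hr'⟩ : o ∣ n / p i := ho ▸ orderOf_dvd_of_pow_eq_one h6
      have h7 : o * r = o * (r' * p i) := by
        rw [← hr, ← mul_assoc, ← hr', Nat.div_mul_cancel (hpn i)]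
      rw [Nat.eq_of_mul_eq_mul_left ho0 h7]
      exact Dvd.intro_left _ rfl
    have hr0 : 0 < r := by
      rcases Nat.eq_zero_or_pos r with h | h
      · rw [h, mul_zero] at hr; omega
      · exact h
    have hP1 : 1 ≤ P := hq.trans_le hqP
    have h6 : o ≤ P ^ w := by
      have h7 : o * ∏ i ∈ Sᶜ, p i ≤ (q * ∏ i ∈ S, p i) * ∏ i ∈ Sᶜ, p i := by
        rw [mul_assoc, prod_mul_prod_compl, ← hn, hr]
        exact Nat.mul_le_mul_left o (Nat.le_of_dvd hr0 h5)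
      have h8 := Nat.le_of_mul_le_mul_right h7 (prod_pos fun i _ => hp i)
      have h9 : ∏ i ∈ S, p i ≤ P ^ S.card := prod_le_pow_card _ _ _ fun i _ => hpP i
      calc o ≤ P * P ^ S.card := h8.trans (Nat.mul_le_mul hqP h9)
        _ = P ^ (S.card + 1) := by ring
        _ ≤ P ^ w := Nat.pow_le_pow_right hP1 (by omega)
    obtain ⟨T, hT⟩ : ∃ T, T = 2 * P ^ w := ⟨_, rfl⟩
    have hT0 : 0 < T := by rw [hT]; positivity
    have h7 : (∑ t ∈ range T, ζ ^ t).re ≤ (P ^ w : ℕ) := by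
      have e1 : ∑ t ∈ range T, ζ ^ t = ∑ t ∈ range (T % o), ζ ^ t := by
        rw [geom_sum_eq h1, geom_sum_eq h1, ho, pow_mod_orderOf]
      rw [e1]
      refine (Complex.re_le_norm _).trans ((norm_sum_le _ _).trans ?_)
      simp only [norm_pow, hζ1, one_pow, sum_const, card_range, nsmul_eq_mul, mul_one]
      exact_mod_cast (Nat.mod_lt _ ho0).le.trans h6
    have h8 : ∑ t : Fin (2 * P ^ w), 4 / (2 * P ^ w : ℕ) * ‖ζ ^ (t : ℕ) - 1‖ ^ 2 ≥ 4 := by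
      rw [← mul_sum, sum_norm_sq _ hζ1, ← hT]
      have h9 : (T : ℝ) = 2 * (P ^ w : ℕ) := by rw [hT]; push_cast; ring
      have h10 : (0 : ℝ) < T := by exact_mod_cast hT0
      rw [ge_iff_le, div_mul_eq_mul_div, le_div_iff₀ h10]
      linarith
    linarith

end Crest.Agent.R210
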