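import Mathlib
import Crest.Prelude.Def_EditDistance

/-! Upper and lower bounds for the edit distance of encoded words. -/

set_option autoImplicit false

namespace Crest.Agent.R210
open Crest.GeometryTopology.EditDistance List

variable {α : Type*}

/-- there is an edit walk of length at most `n` -/
def W (n : ℕ) (u v : List α) : Prop := ∃ p : (editGraph α).Walk u v, p.length ≤ n

lemma W.refl (n : ℕ) (u : List α) : W n u u := ⟨.nil, by simp⟩

lemma W.symm {n : ℕ} {u v : List α} (h : W n u v) : W n v u := by
  obtain ⟨p, hp⟩ := h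
  exact ⟨p.reverse, by simpa using hp⟩

lemma W.trans {n m : ℕ} {u v w : List α} (h : W n u v) (h' : W m v w) : W (n + m) u w := by
  obtain ⟨p, hp⟩ := h
  obtain ⟨q, hq⟩ := h'
  exact ⟨p.append q, by simp; omega⟩

lemma W.mono {n m : ℕ} {u v : List α} (h : W n u v) (hnm : n ≤ m) : W m u v := by
  obtain ⟨p, hp⟩ := h
  exact ⟨p, hp.trans hnm⟩

/-- putting a word in a context is a graph homomorphism -/
def ctx (l r : List α) : editGraph α →g editGraph α where
  toFun u := l ++ u ++ r
  map_rel' := by
    intro u v h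
    unfold editGraph at h ⊢
    rw [SimpleGraph.fromRel_adj] at h ⊢
    have key : ∀ u v : List α, (IsInsertion u v ∨ IsSubstitution u v) →
        (IsInsertion (l ++ u ++ r) (l ++ v ++ r) ∨ IsSubstitution (l ++ u ++ r) (l ++ v ++ r)) := by
      rintro u v (⟨a, b, c, rfl, rfl⟩ | ⟨a, b, c, d, hcd, rfl, rfl⟩)
      · exact Or.inl ⟨l ++ a, b ++ r, c, by simp, by simp⟩
      · exact Or.inr ⟨l ++ a, b ++ r, c, d, hcd, by simp, by simp⟩
    refine ⟨fun h' => h.1 ?_, h.2.imp (key u v) (key v u)⟩
    simpa using h'

lemma W.ctx {n : ℕ} {u v : List α} (h : W n u v) (l r : List α) :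
    W n (l ++ u ++ r) (l ++ v ++ r) := by
  obtain ⟨p, hp⟩ := h
  exact ⟨p.map (R210.ctx l r), (SimpleGraph.Walk.length_map _ p).le.trans hp⟩

lemma W.append {n m : ℕ} {u v u' v' : List α} (h : W n u v) (h' : W m u' v') :
    W (n + m) (u ++ u') (v ++ v') := by
  have h1 := h.ctx [] u'
  have h2 := h'.ctx v []
  simp only [nil_append, append_nil] at h1 h2
  exact h1.trans h2

lemma W.nil (v : List α) : W v.length [] v := by
  induction v with
  | nil => exact W.refl _ _
  | cons a v ih =>
    have h1 : W 1 v (a :: v) := by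
      have : (editGraph α).Adj v (a :: v) := by
        unfold editGraph
        rw [SimpleGraph.fromRel_adj]
        exact ⟨(cons_ne_self a v).symm, Or.inl (Or.inl ⟨[], v, a, rfl, rfl⟩)⟩
      exact ⟨this.toWalk, by simp⟩
    exact ih.trans h1

lemma W.any (u v : List α) : W (u.length + v.length) u v := (W.nil u).symm.trans (W.nil v)

lemma W.dist_le {n : ℕ} {u v : List α} (h : W n u v) : editDist u v ≤ n := by
  obtain ⟨p, hp⟩ := h
  exact (SimpleGraph.dist_le p).trans hp

lemma W_dist (u v : List α) : W (editDist u v) u v := by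
  obtain ⟨p, -⟩ := W.any u v
  obtain ⟨q, hq⟩ := p.reachable.exists_walk_length_eq_dist
  exact ⟨q, hq.le⟩

/-- closeness of symbol words under every fixed-length encoding -/
def Cl (B : ℕ) (x y : List ℕ) : Prop :=
  ∀ (φ : ℕ → List Bool) (m : ℕ), (∀ σ, (φ σ).length = m) → W (m * B) (x.flatMap φ) (y.flatMap φ)

lemma Cl.refl (B : ℕ) (x : List ℕ) : Cl B x x := fun _ _ _ => W.refl _ _

lemma Cl.symm {B : ℕ} {x y : List ℕ} (h : Cl B x y) : Cl B y x := fun φ m hm => (h φ m hm).symm

lemma Cl.trans {B B' : ℕ} {x y z : List ℕ} (h : Cl B x y) (h' : Cl B' y z) : Cl (B + B') x z :=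
  fun φ m hm => by rw [mul_add]; exact (h φ m hm).trans (h' φ m hm)

lemma Cl.mono {B B' : ℕ} {x y : List ℕ} (h : Cl B x y) (hB : B ≤ B') : Cl B' x y :=
  fun φ m hm => (h φ m hm).mono (Nat.mul_le_mul_left m hB)

lemma Cl.append {B B' : ℕ} {x y x' y' : List ℕ} (h : Cl B x y) (h' : Cl B' x' y') :
    Cl (B + B') (x ++ x') (y ++ y') := fun φ m hm => by
  rw [mul_add, flatMap_append, flatMap_append]; exact (h φ m hm).append (h' φ m hm)

lemma Cl.map {B : ℕ} {x y : List ℕ} (h : Cl B x y) (f : ℕ → ℕ) : Cl B (x.map f) (y.map f) :=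
  fun φ m hm => by
    rw [flatMap_map, flatMap_map]
    exact h (fun σ => φ (f σ)) m fun σ => hm _

lemma length_flatMap_const {β γ : Type*} (φ : β → List γ) (m : ℕ) (x : List β)
    (hm : ∀ σ ∈ x, (φ σ).length = m) : (x.flatMap φ).length = m * x.length := by
  induction x with
  | nil => simp
  | cons a x ih =>
    rw [flatMap_cons, length_append, ih fun σ hσ => hm σ (mem_cons_of_mem _ hσ),
      hm a mem_cons_self, length_cons]
    ring

lemma Cl.nil (x : List ℕ) : Cl x.length [] x := fun φ m hm => by
  rw [← length_flatMap_const φ m x fun σ _ => hm σ]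
  exact W.nil _

lemma Cl.flatMap {ι : Type*} (l : List ι) (B : ι → ℕ) (x y : ι → List ℕ)
    (h : ∀ i ∈ l, Cl (B i) (x i) (y i)) : Cl (l.map B).sum (l.flatMap x) (l.flatMap y) := by
  induction l with
  | nil => exact Cl.refl _ _
  | cons a l ih =>
    rw [flatMap_cons, flatMap_cons, map_cons, sum_cons]
    exact (h a mem_cons_self).append (ih fun i hi => h i (mem_cons_of_mem _ hi))

/-! ### decoding -/

/-- `w'` arises from `w` by replacing a factor of length at most `c` -/
def Near {β : Type*} (c : ℕ) (w w' : List β) : Prop :=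
  ∃ u m m' v : List β, w = u ++ m ++ v ∧ w' = u ++ m' ++ v ∧ m.length ≤ c

lemma near_of_adj {u v : List α} (h : (editGraph α).Adj u v) : Near 1 u v := by
  unfold editGraph at h
  rw [SimpleGraph.fromRel_adj] at h
  rcases h.2 with (⟨a, b, c, rfl, rfl⟩ | ⟨a, b, c, d, -, rfl, rfl⟩) |
    (⟨a, b, c, rfl, rfl⟩ | ⟨a, b, c, d, -, rfl, rfl⟩)
  · exact ⟨a, [], [c], b, by simp, by simp, by simp⟩
  · exact ⟨a, [c], [d], b, by simp, by simp, by simp⟩
  · exact ⟨a, [c], [], b, by simp, by simp, by simp⟩
  · exact ⟨a, [d], [c], b, by simp, by simp, by simp⟩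

lemma Near.map {β γ : Type*} {c : ℕ} {w w' : List β} (h : Near c w w') (f : β → γ) :
    Near c (w.map f) (w'.map f) := by
  obtain ⟨u, m, m', v, rfl, rfl, hm⟩ := h
  exact ⟨u.map f, m.map f, m'.map f, v.map f, by simp, by simp, by simpa using hm⟩

lemma Near.sublist {β : Type*} {c : ℕ} {w w' z : List β} (h : Near c w w') (hz : z <+ w) :
    ∃ z', z' <+ z ∧ z' <+ w' ∧ z.length ≤ z'.length + c := by
  obtain ⟨u, m, m', v, rfl, rfl, hm⟩ := h
  obtain ⟨z12, z3, rfl, h12, h3⟩ := sublist_append_iff.mp hz
  obtain ⟨z1, z2, rfl, h1, h2⟩ := sublist_append_iff.mp h12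
  refine ⟨z1 ++ z3, ?_, ?_, ?_⟩
  · exact ((sublist_append_left z1 z2).append (Sublist.refl z3))
  · exact ((h1.trans (sublist_append_left u m')).append h3)
  · have := h2.length_le
    simp only [length_append]; omega

/-- current token and remaining tokens -/
def spl {β : Type*} (p : β → Bool) : List β → List β × List (List β)
  | [] => ([], [])
  | a :: l => if p a then ([], (spl p l).1 :: (spl p l).2) else (a :: (spl p l).1, (spl p l).2)

/-- split at the letters satisfying `p` -/
def split {β : Type*} (p : β → Bool) (l : List β) : List (List β) := (spl p l).1 :: (spl p l).2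

lemma split_prefix {β : Type*} (p : β → Bool) (u : List β) :
    ∃ (A : List (List β)) (c : List β), ∀ s,
      split p (u ++ s) = A ++ (c ++ (spl p s).1) :: (spl p s).2 := by
  induction u with
  | nil => exact ⟨[], [], fun s => rfl⟩
  | cons a u ih =>
    obtain ⟨A, c, h⟩ := ih
    by_cases ha : p a
    · refine ⟨[] :: A, c, fun s => ?_⟩
      have := h s
      unfold split at this ⊢
      simp only [cons_append, spl, ha, if_true, this]
    · cases A with
      | nil =>
        refine ⟨[], a :: c, fun s => ?_⟩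
        have := h s
        unfold split at this ⊢
        simp only [nil_append, cons.injEq] at this
        simp [spl, ha, this.1, this.2]
      | cons A0 A =>
        refine ⟨(a :: A0) :: A, c, fun s => ?_⟩
        have := h s
        unfold split at this ⊢
        simp only [cons_append, cons.injEq] at this
        simp [spl, ha, this.1, this.2]

lemma spl_mid {β : Type*} (p : β → Bool) (m v : List β) :
    ∃ M : List (List β), M.length ≤ m.length ∧ (spl p (m ++ v)).2 = M ++ (spl p v).2 := by
  induction m with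
  | nil => exact ⟨[], le_rfl, rfl⟩
  | cons a m ih =>
    obtain ⟨M, hM, h⟩ := ih
    by_cases ha : p a
    · exact ⟨(spl p (m ++ v)).1 :: M, by simpa using hM, by simp [spl, ha, h]⟩
    · exact ⟨M, by simp; omega, by simp [spl, ha, h]⟩

lemma Near.split {β : Type*} {c : ℕ} {w w' : List β} (h : Near c w w') (p : β → Bool) :
    Near (c + 1) (split p w) (split p w') := by
  obtain ⟨u, m, m', v, rfl, rfl, hm⟩ := h
  obtain ⟨A, t, hA⟩ := split_prefix p u
  obtain ⟨M, hM, h1⟩ := spl_mid p m v
  obtain ⟨M', -, h2⟩ := spl_mid p m' v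
  refine ⟨A, (t ++ (spl p (m ++ v)).1) :: M, (t ++ (spl p (m' ++ v)).1) :: M', (spl p v).2,
    ?_, ?_, ?_⟩
  · rw [append_assoc, hA, h1]; simp
  · rw [append_assoc, hA, h2]; simp
  · simp; omega

lemma split_tok {β : Type*} (p : β → Bool) (t : List β) (ht : ∀ a ∈ t, p a = false) (s : β)
    (hs : p s = true) (r : List β) : split p (t ++ s :: r) = t :: split p r := by
  induction t with
  | nil => simp [split, spl, hs]
  | cons a t ih =>
    have := ih fun b hb => ht b (mem_cons_of_mem _ hb)
    unfold split at this ⊢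
    simp only [cons.injEq] at this
    simp [spl, ht a mem_cons_self, this.1, this.2]

lemma split_flat {β γ : Type*} (p : β → Bool) (s : β) (hs : p s = true) (tk : γ → List β)
    (ht : ∀ g, ∀ a ∈ tk g, p a = false) (x : List γ) (r : List β) :
    split p (x.flatMap (fun g => tk g ++ [s]) ++ r) = x.map tk ++ split p r := by
  induction x with
  | nil => simp
  | cons g x ih =>
    rw [flatMap_cons, append_assoc, append_assoc, singleton_append, split_tok p _ (ht g) s hs, ih]
    simp

/-- tokens of a symbol -/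
def toks (m σ : ℕ) : List (List Bool) :=
  (List.range m).flatMap fun i => if σ.testBit i then [[false], []] else [[], [false]]

/-- binary code of a symbol -/
def code (m σ : ℕ) : List Bool :=
  (toks m σ ++ [[false, false]]).flatMap fun t => t ++ [true]

lemma length_code (m σ : ℕ) : (code m σ).length = 3 * m + 3 := by
  unfold code toks
  rw [flatMap_append, length_append, flatMap_assoc, length_flatMap_const _ 3]
  · simp
  · intro i _
    split_ifs <;> simp

lemma toks_inj (m : ℕ) : Set.InjOn (toks m) (Set.Iio (2 ^ m)) := by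
  have key : ∀ m σ σ', toks m σ = toks m σ' → ∀ i < m, σ.testBit i = σ'.testBit i := by
    intro m σ σ'
    induction m with
    | zero => intro _ i hi; omega
    | succ m ih =>
      intro h i hi
      unfold toks at h ih
      rw [List.range_succ, flatMap_append, flatMap_append] at h
      have h1 := List.append_inj' h (by
        simp only [flatMap_cons, flatMap_nil, append_nil]; split_ifs <;> rfl)
      rcases Nat.lt_succ_iff_lt_or_eq.mp hi with h2 | h2
      · exact ih h1.1 i h2
      · subst h2
        have := h1.2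
        simp only [flatMap_cons, flatMap_nil, append_nil] at this
        by_cases a : σ.testBit i <;> by_cases b : σ'.testBit i <;> simp_all
  intro σ hσ σ' hσ' h
  refine Nat.eq_of_testBit_eq fun i => ?_
  by_cases hi : i < m
  · exact key m σ σ' h i hi
  · have h2 : 2 ^ m ≤ 2 ^ i := Nat.pow_le_pow_right (by norm_num) (by omega)
    rw [Nat.testBit_lt_two_pow (lt_of_lt_of_le hσ h2),
      Nat.testBit_lt_two_pow (lt_of_lt_of_le hσ' h2)]

/-- decoder -/
noncomputable def dec (m : ℕ) (w : List Bool) : List ℕ :=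
  (split (fun t => t == [false, false]) (split id w)).map
    (Function.invFunOn (toks m) (Set.Iio (2 ^ m)))

lemma dec_enc (m : ℕ) (x : List ℕ) (hx : ∀ σ ∈ x, σ < 2 ^ m) :
    ∃ a, dec m (x.flatMap (code m)) = x ++ [a] := by
  have h0 : ∀ σ, ∀ t ∈ toks m σ, t = [false] ∨ t = [] := by
    intro σ t ht
    unfold toks at ht
    obtain ⟨i, -, hi⟩ := mem_flatMap.mp ht
    split_ifs at hi <;> simp at hi <;> tauto
  have h1 : split id (x.flatMap (code m)) =
      x.flatMap (fun σ => toks m σ ++ [[false, false]]) ++ [[]] := by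
    have e1 : x.flatMap (code m) = (x.flatMap (fun σ => toks m σ ++ [[false, false]])).flatMap
        (fun t => t ++ [true]) := by
      rw [flatMap_assoc]; rfl
    have h2 : ∀ t ∈ x.flatMap (fun σ => toks m σ ++ [[false, false]]), ∀ a ∈ t, a = false := by
      intro t ht a ha
      obtain ⟨σ, -, hσ⟩ := mem_flatMap.mp ht
      rcases mem_append.mp hσ with h | h
      · rcases h0 σ t h with rfl | rfl <;> simp_all
      · simp only [mem_singleton] at h
        subst h; simpa using ha
    rw [e1]
    generalize x.flatMap (fun σ => toks m σ ++ [[false, false]]) = L at h2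
    induction L with
    | nil => rfl
    | cons t L ih =>
      rw [flatMap_cons, append_assoc, singleton_append,
        split_tok id t (h2 t mem_cons_self) true rfl, ih fun t' h => h2 t' (mem_cons_of_mem _ h)]
      rfl
  unfold dec
  rw [h1, split_flat (fun t => t == [false, false]) [false, false] (by simp) (toks m)
    (fun σ t ht => by rcases h0 σ t ht with rfl | rfl <;> simp)]
  refine ⟨Function.invFunOn (toks m) (Set.Iio (2 ^ m)) [[]], ?_⟩
  rw [map_append, map_map]
  congr 1
  conv_rhs => rw [← map_id x]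
  exact map_congr_left fun σ hσ => (toks_inj m).leftInvOn_invFunOn (hx σ hσ)

lemma walk_sublist (m : ℕ) {u v : List Bool} (p : (editGraph Bool).Walk u v) (z : List ℕ)
    (hz : z <+ dec m u) : ∃ z', z' <+ z ∧ z' <+ dec m v ∧ z.length ≤ z'.length + 3 * p.length := by
  induction p generalizing z with
  | nil => exact ⟨z, Sublist.refl z, hz, by simp⟩
  | cons h p ih =>
    have h1 := (((near_of_adj h).split id).split (fun t => t == [false, false])).map
      (Function.invFunOn (toks m) (Set.Iio (2 ^ m)))
    obtain ⟨z1, a1, a2, a3⟩ := h1.sublist hz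
    obtain ⟨z2, b1, b2, b3⟩ := ih z1 a2
    exact ⟨z2, b1.trans a1, b2, by simp only [SimpleGraph.Walk.length_cons]; omega⟩

theorem dist_lower (m : ℕ) (x y : List ℕ) (hx : ∀ σ ∈ x, σ < 2 ^ m) (hy : ∀ σ ∈ y, σ < 2 ^ m) :
    ∃ z, z <+ x ∧ z <+ y ∧
      x.length ≤ z.length + 1 + 3 * editDist (x.flatMap (code m)) (y.flatMap (code m)) := by
  obtain ⟨p, hp⟩ := W_dist (x.flatMap (code m)) (y.flatMap (code m))
  obtain ⟨a, ha⟩ := dec_enc m x hx
  obtain ⟨b, hb⟩ := dec_enc m y hy
  obtain ⟨z, h1, h2, h3⟩ := walk_sublist m p x (by rw [ha]; exact sublist_append_left _ _)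
  rw [hb] at h2
  obtain ⟨z1, z2, rfl, h4, h5⟩ := sublist_append_iff.mp h2
  refine ⟨z1, (sublist_append_left _ _).trans h1, h4, ?_⟩
  have := h5.length_le
  simp only [length_append, length_singleton] at h3 this
  omega

end Crest.Agent.R210
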