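import Crest.Agent.R210.Step

/-! Parameters and the final bound. -/

set_option autoImplicit false

namespace Crest.Agent.R210
open Crest.GeometryTopology.EditDistance

theorem tower (w A : ℕ) (hw : 0 < w) (p : Fin (24 * w + 1) → ℕ)
    (hcop : Pairwise fun i j => Nat.Coprime (p i) (p j)) (hAp : ∀ i, A ≤ p i)
    (hpA : ∀ i, p i ≤ A ^ 2) (hA1 : w ^ w ≤ A) (hA2 : 8 ^ w ≤ A) (hA3 : 16 ≤ A) :
    ∀ j, j ≤ w ^ 2 → ∃ F Pn : ℝ, 0 ≤ F ∧
      (((A ^ (4 * w) * (24 * w)) ^ j : ℕ) : ℝ) / 8 ^ j ≤ ((A ^ (4 * w) * (24 * w)) ^ j : ℕ) - F ∧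
      Pn ≤ 2 * (4 / w) ^ j * ((A ^ (4 * w) * (24 * w)) ^ j : ℕ) ∧
      ∀ c, Ex (p c) ((A ^ (4 * w) * (24 * w)) ^ j) (A ^ 2 * (24 * w) ^ j) F Pn := by
  intro j
  induction j with
  | zero =>
    intro _
    refine ⟨0, 2, le_rfl, by simp, by simp, fun c => ?_⟩
    simpa using base (p c) (A ^ 2) (by have := hAp c; omega) (hpA c)
  | succ j ih =>
    intro hj
    obtain ⟨F, Pn, hF, hloss, hPn, hEx⟩ := ih (by omega)
    obtain ⟨b, hb⟩ : ∃ b, b = A ^ (4 * w) := ⟨_, rfl⟩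
    rw [← hb] at hloss hPn hEx ⊢
    obtain ⟨ℓ, hℓ⟩ : ∃ ℓ, ℓ = (b * (24 * w)) ^ j := ⟨_, rfl⟩
    rw [pow_succ' (b * (24 * w)) j, pow_succ (24 * w) j, ← mul_assoc (A ^ 2)]
    rw [← hℓ] at hloss hPn hEx ⊢
    have hA0 : 0 < A := by omega
    have hb0 : 0 < b := by rw [hb]; positivity
    have hℓ0 : (0 : ℝ) ≤ ℓ := Nat.cast_nonneg _
    have h8 : (0 : ℝ) < 8 ^ j := by positivity
    have hl0 : (0 : ℝ) ≤ ℓ / 8 ^ j := by positivity
    have hw' : (1 : ℝ) ≤ w := by exact_mod_cast hw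
    have hb' : (1 : ℝ) ≤ b := by exact_mod_cast hb0
    refine ⟨_, _, ?_, ?_, ?_, fun c => step (by omega) (fun i => p (c.succAbove i)) (p c) (A ^ 2) w
      A b (4 * w + 2) ℓ _ F Pn (by have := hAp c; omega)
      (fun i i' h => hcop fun h' => h (Fin.succAbove_right_injective h'))
      (fun i => hcop (Fin.succAbove_ne c i).symm) (hpA c) (fun i => hpA _) hw (by omega)
      (fun i => hAp _) ?_ hF (by linarith) fun i => hEx _⟩
    · have : (0 : ℝ) ≤ ℓ - F := by linarith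
      positivity
    · have h1 : 8 ^ (j + 1) ≤ b := by
        calc 8 ^ (j + 1) ≤ 8 ^ (w * w) := Nat.pow_le_pow_right (by norm_num) (by nlinarith)
          _ = (8 ^ w) ^ w := by rw [pow_mul]
          _ ≤ A ^ w := Nat.pow_le_pow_left hA2 _
          _ ≤ b := by rw [hb]; exact Nat.pow_le_pow_right hA0 (by omega)
      have h2 : (8 : ℝ) ^ j * 8 ≤ b := by exact_mod_cast h1
      obtain ⟨r, hr⟩ : ∃ r : ℝ, r = ℓ / 8 ^ j := ⟨_, rfl⟩
      have h3 : (ℓ : ℝ) = r * 8 ^ j := by rw [hr]; field_simp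
      have h4 : ((b * (24 * w) * ℓ : ℕ) : ℝ) / 8 ^ (j + 1) = 3 * (b * w) * r := by
        rw [hr, pow_succ]; push_cast; field_simp; ring
      rw [h4]
      rw [← hr] at hloss hl0
      push_cast
      have hbw : (b : ℝ) ≤ b * w := by nlinarith
      have hbw' : (w : ℝ) ≤ b * w := by nlinarith
      have h5 : (6 * (b * w) : ℝ) ≤ b * (24 * w) - (2 * b + 1) * (4 * w + 2) := by nlinarith
      have h6 : r * (6 * (b * w)) ≤ (ℓ - F) * (b * (24 * w) - (2 * b + 1) * (4 * w + 2)) :=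
        mul_le_mul hloss h5 (by positivity) (by linarith)
      have h7 : r * (8 ^ j * 8) ≤ r * (b * w) := mul_le_mul_of_nonneg_left (by linarith) hl0
      nlinarith
    · have h1 : 16 * w ^ (j + 1) ≤ (A ^ 2) ^ w := by
        calc 16 * w ^ (j + 1) ≤ A ^ w * w ^ (w * w) :=
            Nat.mul_le_mul (hA3.trans (Nat.le_self_pow hw.ne' A))
              (Nat.pow_le_pow_right hw (by nlinarith))
          _ = A ^ w * (w ^ w) ^ w := by rw [pow_mul]
          _ ≤ A ^ w * A ^ w := Nat.mul_le_mul_left _ (Nat.pow_le_pow_left hA1 _)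
          _ = (A ^ 2) ^ w := by ring
      have h2 : (b : ℝ) = ((A ^ 2 : ℕ) : ℝ) ^ w * ((A ^ 2 : ℕ) : ℝ) ^ w := by
        rw [hb]; push_cast; ring
      have h3 : (16 : ℝ) * w ^ (j + 1) ≤ ((A ^ 2 : ℕ) : ℝ) ^ w := by exact_mod_cast h1
      obtain ⟨Q, hQ⟩ : ∃ Q : ℝ, Q = ((A ^ 2 : ℕ) : ℝ) ^ w := ⟨_, rfl⟩
      rw [← hQ] at h2 h3 ⊢
      have hQ0 : 0 ≤ Q := le_trans (by positivity) h3
      have h4 : 16 ≤ (4 / w : ℝ) ^ (j + 1) * Q := by
        rw [div_pow, div_mul_eq_mul_div, le_div_iff₀ (by positivity)]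
        have : (1 : ℝ) ≤ 4 ^ (j + 1) := one_le_pow₀ (by norm_num)
        nlinarith
      have h5 : 16 * Q ≤ (4 / w : ℝ) ^ (j + 1) * b := by
        rw [h2, ← mul_assoc]; exact mul_le_mul_of_nonneg_right h4 hQ0
      have h6 : 2 / w * ((24 * w : ℕ) : ℝ) * b * Pn ≤
          2 / w * ((24 * w : ℕ) : ℝ) * b * (2 * (4 / w) ^ j * ℓ) :=
        mul_le_mul_of_nonneg_left hPn (by positivity)
      have h7 : 16 * Q * ((24 * w : ℕ) : ℝ) * ℓ ≤
          (4 / w : ℝ) ^ (j + 1) * b * ((24 * w : ℕ) : ℝ) * ℓ := by gcongr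
      refine (add_le_add h6 h7).trans (le_of_eq ?_)
      push_cast
      rw [pow_succ]
      ring
    · have h1 : b + 1 ≤ A ^ (4 * w + 1) := by
        rw [pow_succ, ← hb]; nlinarith
      calc p c * (b + 1) ≤ A ^ 2 * A ^ (4 * w + 1) := Nat.mul_le_mul (hpA c) h1
        _ = A ^ (4 * w + 2 + 1) := by ring

theorem final (q ℓ m : ℕ) (F Pn L β : ℝ) (hq : 1 < q) (h : Ex q ℓ (2 ^ m) F Pn) (hL : 2 ≤ L)
    (hF : L ≤ ℓ - F) (hβ : Pn ≤ β)
    (f : List Bool → lp (fun _ : ℕ => ℝ) 1) (s D : ℝ) (hs : 0 < s)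
    (hf : ∀ x y : List Bool, x.length = (3 * m + 3) * ℓ → y.length = (3 * m + 3) * ℓ → x ≠ y →
      s * (editDist x y : ℝ) ≤ ‖f x - f y‖ ∧ ‖f x - f y‖ ≤ D * s * (editDist x y : ℝ)) :
    0 < D ∧ L ≤ 6 * (3 * m + 3) * β * D := by
  obtain ⟨Ω, inst1, inst2, act, u, hG⟩ := h
  obtain ⟨enc, henc⟩ : ∃ enc : Ω → List Bool, ∀ x, enc x = (u x).flatMap (code m) :=
    ⟨_, fun _ => rfl⟩
  have hlen : ∀ x, (enc x).length = (3 * m + 3) * ℓ := fun x => by
    rw [henc, length_flatMap_const _ (3 * m + 3) _ fun σ _ => length_code m σ, hG.len]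
  have hlow : ∀ x, L / 6 ≤ editDist (enc x) (enc (act 1 x)) := by
    intro x
    obtain ⟨z, h1, h2, h3⟩ := dist_lower m (u x) (u (act 1 x)) (hG.sym _) (hG.sym _)
    have h4 := hG.far x 0 1 (fun h => by
      have := (Nat.modEq_iff_dvd' (Nat.zero_le 1)).mp h
      have := Nat.le_of_dvd (by norm_num) this
      omega) z (by rw [hG.act_zero]; exact h1) h2
    rw [← henc, ← henc, hG.len] at h3
    have h5 : (ℓ : ℝ) ≤ z.length + 1 + 3 * editDist (enc x) (enc (act 1 x)) := by exact_mod_cast h3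
    linarith
  have hne : ∀ x, enc x ≠ enc (act 1 x) := by
    intro x h
    have h1 := hlow x
    have h2 : editDist (enc x) (enc (act 1 x)) = 0 := by
      rw [← h]; exact Nat.le_zero.mp (W.refl 0 _).dist_le
    rw [h2] at h1
    push_cast at h1
    linarith
  have hD : 0 < D := by
    obtain ⟨x⟩ := inst2
    obtain ⟨h1, h2⟩ := hf _ _ (hlen x) (hlen _) (hne x)
    have h3 := hlow x
    have h4 : 0 < s * editDist (enc x) (enc (act 1 x)) := mul_pos hs (by linarith)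
    by_contra h5
    rw [mul_assoc] at h2
    nlinarith
  refine ⟨hD, ?_⟩
  have key := hG.poin (fun x y => ‖f (enc x) - f (enc y)‖) (NT_l1 fun x => f (enc x))
    (D * s * (3 * m + 3)) (fun x y B hB => ?_) 1
  · have h1 : ∑ _x : Ω, s * (L / 6) ≤ ∑ x, ‖f (enc x) - f (enc (act 1 x))‖ :=
      Finset.sum_le_sum fun x _ => (mul_le_mul_of_nonneg_left (hlow x) hs.le).trans
        (hf _ _ (hlen x) (hlen _) (hne x)).1
    rw [Finset.sum_const, Finset.card_univ, nsmul_eq_mul] at h1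
    have hc : (0 : ℝ) < Fintype.card Ω := by exact_mod_cast Fintype.card_pos
    have h2 : D * s * (3 * m + 3) * Pn * Fintype.card Ω ≤
        D * s * (3 * m + 3) * β * Fintype.card Ω := by gcongr
    have h3 : (Fintype.card Ω * s) * L ≤ (Fintype.card Ω * s) * (6 * (3 * m + 3) * β * D) := by
      linarith
    exact le_of_mul_le_mul_left h3 (by positivity)
  · by_cases hxy : enc x = enc y
    · simp only [hxy, sub_self, norm_zero]
      positivity
    · have h1 := (hB 0 (code m) _ (length_code m)).dist_le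
      rw [hG.act_zero, hG.act_zero, ← henc, ← henc] at h1
      have h2 : (editDist (enc x) (enc y) : ℝ) ≤ (3 * m + 3) * B := by exact_mod_cast h1
      refine (hf _ _ (hlen x) (hlen y) hxy).2.trans ?_
      rw [mul_assoc (D * s)]
      exact mul_le_mul_of_nonneg_left h2 (by positivity)

lemma Ex.mono {q ℓ Sg Sg' : ℕ} {F Pn : ℝ} (h : Ex q ℓ Sg F Pn) (hS : Sg ≤ Sg') :
    Ex q ℓ Sg' F Pn := by
  obtain ⟨Ω, i1, i2, act, u, hG⟩ := h
  exact ⟨Ω, i1, i2, act, u, hG.act_zero, hG.act_add, hG.act_per, hG.len,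
    fun x σ hσ => (hG.sym x σ hσ).trans_le hS, hG.far, hG.poin⟩

theorem core (w : ℕ) (hw : 100 ≤ w) : ∃ n : ℕ, n ≤ w ^ (408 * w ^ 4) ∧
    ∀ (f : List Bool → lp (fun _ : ℕ => ℝ) 1) (s D : ℝ), 0 < s →
      (∀ x y : List Bool, x.length = n → y.length = n → x ≠ y →
        s * (editDist x y : ℝ) ≤ ‖f x - f y‖ ∧ ‖f x - f y‖ ≤ D * s * (editDist x y : ℝ)) →
      0 < D ∧ (w : ℝ) ^ (w ^ 2) ≤ 32 ^ (w ^ 2) * w ^ 6 * D := by
  obtain ⟨K, hK⟩ : ∃ K, K = 24 * w + 1 := ⟨_, rfl⟩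
  obtain ⟨A, hA⟩ : ∃ A, A = K ^ K * K.factorial := ⟨_, rfl⟩
  have hK0 : 0 < K := by omega
  have hA0 : K ^ K ≤ A := by
    rw [hA]; exact Nat.le_mul_of_pos_right _ (Nat.factorial_pos K)
  have hA1 : A ≤ K ^ (2 * K) := by
    rw [hA, two_mul, pow_add]; exact Nat.mul_le_mul_left _ (Nat.factorial_le_pow K)
  have hA2 : ∀ a e, 0 < a → a ≤ K → e ≤ K → a ^ e ≤ A := fun a e ha h1 h2 =>
    ((Nat.pow_le_pow_left h1 _).trans (Nat.pow_le_pow_right hK0 h2)).trans hA0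
  have hA3 : K + 1 ≤ A := by
    have := hA2 K 2 hK0 le_rfl (by omega)
    nlinarith
  obtain ⟨F, Pn, hF, hloss, hPn, hEx⟩ := tower w A (by omega) (fun i => (i + 1) * A + 1)
    (fun i j hij => by
      have key : ∀ i j : Fin (24 * w + 1), (i : ℕ) < j →
          Nat.Coprime ((i + 1) * A + 1) ((j + 1) * A + 1) := fun i j h => by
        refine Nat.coprime_mul_succ ?_
        rw [hA]
        have := j.2
        exact Dvd.dvd.mul_left (Nat.dvd_factorial (by omega) (by omega)) _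
      rcases lt_or_gt_of_ne (Fin.val_injective.ne hij) with h | h
      · exact key i j h
      · exact (key j i h).symm)
    (fun i => by nlinarith) (fun i => by
      have h1 : (i + 1) * A ≤ K * A := Nat.mul_le_mul_right _ (by have := i.2; omega)
      nlinarith)
    (hA2 _ _ (by omega) (by omega) (by omega)) (hA2 _ _ (by omega) (by omega) (by omega))
    (by omega) (w ^ 2) le_rfl
  obtain ⟨m, hm⟩ : ∃ m, m = K * (4 * K + w ^ 2) := ⟨_, rfl⟩
  obtain ⟨ℓ, hℓ⟩ : ∃ ℓ, ℓ = (A ^ (4 * w) * (24 * w)) ^ w ^ 2 := ⟨_, rfl⟩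
  rw [← hℓ] at hloss hPn hEx
  have hM : 12 * (3 * m + 3) ≤ w ^ 6 := by
    have h1 : K ≤ 25 * w := by omega
    have h2 : 4 * K ≤ w ^ 2 := by nlinarith
    have h3 : m ≤ 25 * w * (2 * w ^ 2) := by rw [hm]; exact Nat.mul_le_mul h1 (by omega)
    have h4 : 100 ^ 3 ≤ w ^ 3 := Nat.pow_le_pow_left hw 3
    have h5 : w ^ 6 = w ^ 3 * w ^ 3 := by ring
    have h6 : 25 * w * (2 * w ^ 2) = 50 * w ^ 3 := by ring
    nlinarith
  refine ⟨(3 * m + 3) * ℓ, ?_, fun f s D hs hf => ?_⟩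
  · have h1 : K ≤ w ^ 2 := by nlinarith
    have h2 : A ^ (4 * w) * (24 * w) ≤ K ^ (2 * K * (4 * w) + 1) := by
      rw [pow_succ, pow_mul K]
      exact Nat.mul_le_mul (Nat.pow_le_pow_left hA1 _) (by omega)
    have h3 : 2 * K * (4 * w) + 1 ≤ 201 * w ^ 2 := by nlinarith
    have h4 : ℓ ≤ w ^ (402 * w ^ 4) := by
      calc ℓ ≤ ((w ^ 2) ^ (201 * w ^ 2)) ^ w ^ 2 := by
            rw [hℓ]
            exact Nat.pow_le_pow_left (h2.trans ((Nat.pow_le_pow_right hK0 h3).trans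
              (Nat.pow_le_pow_left h1 _))) _
        _ = w ^ (402 * w ^ 4) := by rw [← pow_mul, ← pow_mul]; congr 1; ring
    have h5 : 1 ≤ w ^ 4 := Nat.one_le_pow _ _ (by omega)
    calc (3 * m + 3) * ℓ ≤ w ^ (6 * w ^ 4) * w ^ (402 * w ^ 4) :=
          Nat.mul_le_mul ((show 3 * m + 3 ≤ w ^ 6 by omega).trans
            (Nat.pow_le_pow_right (by omega) (by omega))) h4
      _ = w ^ (408 * w ^ 4) := by rw [← pow_add]; congr 1; ring
  · have hS : A ^ 2 * (24 * w) ^ w ^ 2 ≤ 2 ^ m := by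
      calc A ^ 2 * (24 * w) ^ w ^ 2 ≤ (K ^ (2 * K)) ^ 2 * K ^ w ^ 2 :=
            Nat.mul_le_mul (Nat.pow_le_pow_left hA1 _) (Nat.pow_le_pow_left (by omega) _)
        _ = K ^ (4 * K + w ^ 2) := by rw [← pow_mul, ← pow_add]; congr 1; ring
        _ ≤ (2 ^ K) ^ (4 * K + w ^ 2) := Nat.pow_le_pow_left Nat.lt_two_pow_self.le _
        _ = 2 ^ m := by rw [← pow_mul, hm]
    have hℓ2 : 2 * 8 ^ w ^ 2 ≤ ℓ := by
      have h1 : 16 ≤ A ^ (4 * w) * (24 * w) := by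
        have : 1 ≤ A ^ (4 * w) := Nat.one_le_pow _ _ (by omega)
        nlinarith
      calc 2 * 8 ^ w ^ 2 ≤ 2 ^ w ^ 2 * 8 ^ w ^ 2 :=
            Nat.mul_le_mul_right _ (Nat.le_self_pow (by positivity) 2)
        _ = 16 ^ w ^ 2 := by rw [← mul_pow]; norm_num
        _ ≤ ℓ := by rw [hℓ]; exact Nat.pow_le_pow_left h1 _
    have h8 : (0 : ℝ) < 8 ^ w ^ 2 := by positivity
    obtain ⟨hD, h1⟩ := final _ ℓ m F Pn _ _ (by simp; omega) ((hEx 0).mono hS)
      (by rw [le_div_iff₀ h8]; exact_mod_cast hℓ2) hloss hPn f s D hs hf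
    refine ⟨hD, ?_⟩
    have hℓ0 : (0 : ℝ) < ℓ := by
      have : 0 < ℓ := lt_of_lt_of_le (by positivity) hℓ2
      exact_mod_cast this
    have hw0 : (0 : ℝ) < w := by exact_mod_cast (by omega : 0 < w)
    have hM' : (12 * (3 * m + 3) : ℝ) ≤ w ^ 6 := by exact_mod_cast hM
    rw [div_le_iff₀ h8, div_pow] at h1
    have h2 : (ℓ : ℝ) * w ^ w ^ 2 ≤ ℓ * (32 ^ w ^ 2 * (12 * (3 * m + 3)) * D) := by
      refine (mul_le_mul_of_nonneg_right h1 (by positivity)).trans (le_of_eq ?_)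
      rw [show (32 : ℝ) = 4 * 8 by norm_num, mul_pow]
      field_simp
      ring
    refine (le_of_mul_le_mul_left h2 hℓ0).trans ?_
    gcongr

end Crest.Agent.R210
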