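import Crest.Agent.R210.Edit
import Crest.Agent.R210.Circ
import Crest.Agent.R210.Block

/-! The recursive construction. -/

set_option autoImplicit false

namespace Crest.Agent.R210
open List

structure Good {Ω : Type} [Fintype Ω] (act : ℕ → Ω → Ω) (u : Ω → List ℕ) (q ℓ Sg : ℕ)
    (F Pn : ℝ) : Prop where
  act_zero : ∀ x, act 0 x = x
  act_add : ∀ a b x, act (a + b) x = act a (act b x)
  act_per : ∀ x, act q x = x
  len : ∀ x, (u x).length = ℓ
  sym : ∀ x, ∀ σ ∈ u x, σ < Sg
  far : ∀ x a a', ¬ a ≡ a' [MOD q] → ∀ z : List ℕ, z <+ u (act a x) → z <+ u (act a' x) →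
    (z.length : ℝ) ≤ F
  poin : ∀ d : Ω → Ω → ℝ, NT d → ∀ lam : ℝ,
    (∀ x y (B : ℕ), (∀ a, Cl B (u (act a x)) (u (act a y))) → d x y ≤ lam * B) →
    ∀ a, ∑ x, d x (act a x) ≤ lam * Pn * Fintype.card Ω

def Ex (q ℓ Sg : ℕ) (F Pn : ℝ) : Prop :=
  ∃ (Ω : Type) (_ : Fintype Ω) (_ : Nonempty Ω) (act : ℕ → Ω → Ω) (u : Ω → List ℕ),
    Good act u q ℓ Sg F Pn

theorem base (q P : ℕ) (hq : 0 < q) (hqP : q ≤ P) : Ex q 1 P 0 2 := by
  refine ⟨Fin q, inferInstance, ⟨⟨0, hq⟩⟩, fun a x => ⟨(a + x) % q, Nat.mod_lt _ hq⟩,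
    fun x => [x], ?_, ?_, ?_, fun _ => rfl, ?_, ?_, ?_⟩
  · intro x; ext; simp [Nat.mod_eq_of_lt x.2]
  · intro a b x; ext; simp [add_assoc]
  · intro x; ext; simp [Nat.mod_eq_of_lt x.2]
  · intro x σ hσ
    rw [mem_singleton] at hσ
    have := x.2
    omega
  · intro x a a' h z hz hz'
    rcases sublist_singleton.mp hz with rfl | rfl
    · simp
    · rcases sublist_singleton.mp hz' with h1 | h1
      · simp at h1
      · have h2 : (a + x) % q = (a' + x) % q := by simpa using h1
        exact absurd (Nat.ModEq.add_right_cancel' x h2) h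
  · intro d _ lam hd a
    have h1 : ∀ x y, d x y ≤ lam * 2 := fun x y => by
      have := hd x y 2 fun a => (Cl.nil _).symm.trans (Cl.nil _)
      simpa using this
    refine (Finset.sum_le_sum fun x _ => h1 _ _).trans (le_of_eq ?_)
    simp [mul_comm]

lemma sum_cols (k b i B : ℕ) (hi : i < k) :
    ((List.range (b * k)).map fun s => if s % k = i then B else 0).sum = b * B := by
  induction b with
  | zero => simp
  | succ b ih =>
    rw [add_mul, one_mul, List.range_add, map_append, sum_append, ih, map_map, add_mul, one_mul]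
    congr 1
    have : ∀ n, n ≤ k → ((List.range n).map ((fun s => if s % k = i then B else 0) ∘
        fun x => b * k + x)).sum = if i < n then B else 0 := by
      intro n
      induction n with
      | zero => simp
      | succ n ihn =>
        intro hn
        rw [List.range_succ, map_append, sum_append, ihn (by omega)]
        simp only [map_cons, map_nil, sum_cons, sum_nil, Function.comp, add_zero]
        rw [mul_comm b k, Nat.mul_add_mod, Nat.mod_eq_of_lt (by omega)]
        split_ifs <;> omega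
    rw [this k le_rfl, if_pos hi]

lemma sum_update {ι : Type} [Fintype ι] [DecidableEq ι] {Ω : ι → Type} [∀ i, Fintype (Ω i)]
    (i : ι) (f : (∀ i, Ω i) → ℝ) :
    ∑ ω : ∀ i, Ω i, ∑ x : Ω i, f (Function.update ω i x) = Fintype.card (Ω i) * ∑ ω, f ω := by
  rw [← Fintype.sum_prod_type' (f := fun (ω : ∀ i, Ω i) (x : Ω i) => f (Function.update ω i x))]
  have hinv : Function.Involutive
      (fun z : (∀ i, Ω i) × Ω i => (Function.update z.1 i z.2, z.1 i)) := by
    intro z; simp
  rw [Fintype.sum_bijective _ hinv.bijective _ (fun z => f z.1) (fun z => rfl),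
    Fintype.sum_prod_type]
  simp [Finset.mul_sum]

lemma div_add_div (q x h : ℕ) (hq : 0 < q) : (x % q + h) / q + x / q = (x + h) / q := by
  conv_rhs => rw [← Nat.mod_add_div x q, add_right_comm, Nat.add_mul_div_left _ _ hq]

theorem step {k : ℕ} (hk : 2 ≤ k) (p : Fin k → ℕ) (q P w A b g ℓ Sg : ℕ) (F Pn : ℝ)
    (hq : 0 < q) (hcop : Pairwise fun i j => Nat.Coprime (p i) (p j))
    (hqcop : ∀ i, Nat.Coprime q (p i)) (hqP : q ≤ P) (hpP : ∀ i, p i ≤ P) (hw : 0 < w)
    (hA : 2 ≤ A) (hAp : ∀ i, A ≤ p i) (hb : q * (b + 1) ≤ A ^ (g + 1))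
    (hF : 0 ≤ F) (hFl : F ≤ ℓ) (h : ∀ i, Ex (p i) ℓ Sg F Pn) :
    Ex q (b * k * ℓ) (Sg * k) (F * (b * k + 1 / 2) + (ℓ - F) * ((2 * b + 1) * g))
      (2 / w * k * b * Pn + 16 * P ^ w * k * ℓ) := by
  classical
  choose Ω inst1 inst2 act u hG using h
  have hp : ∀ i, 0 < p i := fun i => by have := hAp i; omega
  have hk0 : 0 < k := by omega
  obtain ⟨N, hN⟩ : ∃ N, N = ∏ i, p i := ⟨_, rfl⟩
  have hN0 : 0 < N := hN ▸ Finset.prod_pos fun i _ => hp i
  have hpN : ∀ i, p i ∣ N := fun i => hN ▸ Finset.dvd_prod_of_mem p (Finset.mem_univ i)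
  have hdvd : ∀ i a x, p i ∣ a → act i a x = x := fun i a x ha => by
    rw [← act_mod (act i) (hG i).act_add (p i) (hG i).act_per, Nat.mod_eq_zero_of_dvd ha,
      (hG i).act_zero]
  obtain ⟨S, hS⟩ : ∃ S : ℕ → (∀ i, Ω i) → (∀ i, Ω i), ∀ h ω, S h ω = fun i => act i h (ω i) :=
    ⟨_, fun _ _ => rfl⟩
  have hSadd : ∀ a b ω, S (a + b) ω = S a (S b ω) := fun a b ω => by
    simp only [hS, (hG _).act_add]
  obtain ⟨sig, hsig⟩ : ∃ sig : ℕ → (∀ i, Ω i) × Fin q → (∀ i, Ω i) × Fin q,
      ∀ h x, sig h x = (S ((x.2 + h) / q) x.1, ⟨(x.2 + h) % q, Nat.mod_lt _ hq⟩) :=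
    ⟨_, fun _ _ => rfl⟩
  have hsigq : ∀ h x, sig (q * h) x = (S h x.1, x.2) := fun h x => by
    rw [hsig, Nat.add_mul_div_left _ _ hq, Nat.div_eq_of_lt x.2.2, zero_add]
    congr 1
    ext; simp [Nat.mod_eq_of_lt x.2.2]
  have hsig0 : ∀ x, sig 0 x = x := fun x => by
    have := hsigq 0 x
    rw [mul_zero] at this
    rw [this, hS]
    simp only [(hG _).act_zero]
  have hsigadd : ∀ a b x, sig (a + b) x = sig a (sig b x) := fun a b x => by
    rw [hsig a, hsig b, hsig]
    simp only
    rw [← hSadd, div_add_div q _ _ hq]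
    congr 1
    · congr 2; ring
    · ext; simp only [Nat.mod_add_mod]; congr 1; ring
  have hsigper : ∀ x, sig (q * N) x = x := fun x => by
    rw [hsigq, hS]
    simp only [fun i x => hdvd i N x (hpN i)]
  obtain ⟨col, hcol⟩ : ∃ col : ℕ → Fin k, ∀ s, col s = ⟨s % k, Nat.mod_lt _ hk0⟩ :=
    ⟨_, fun _ => rfl⟩
  have hcolv : ∀ s, (col s : ℕ) = s % k := fun s => by rw [hcol]
  obtain ⟨blk2, hblk2⟩ : ∃ blk2 : (∀ i, Ω i) → ℕ → Fin k → List ℕ, ∀ ω t i,
      blk2 ω t i = (u i (act i t (ω i))).map fun σ => σ * k + i := ⟨_, fun _ _ _ => rfl⟩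
  obtain ⟨blk, hblk⟩ : ∃ blk : (∀ i, Ω i) → ℕ → List ℕ, ∀ ω s,
      blk ω s = blk2 ω (s / k) (col s) := ⟨_, fun _ _ => rfl⟩
  have hblk2S : ∀ h ω t i, blk2 (S h ω) t i = blk2 ω (t + h) i := fun h ω t i => by
    rw [hblk2, hblk2, hS, (hG i).act_add]
  have hblkS : ∀ h ω s, blk (S h ω) s = blk ω (h * k + s) := fun h ω s => by
    have h1 : col (h * k + s) = col s := by
      ext; rw [hcolv, hcolv, mul_comm, Nat.mul_add_mod]
    rw [hblk, hblk, hblk2S, h1, mul_comm h k, Nat.mul_add_div hk0, add_comm]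
  have hblen : ∀ ω s, (blk ω s).length = ℓ := fun ω s => by
    rw [hblk, hblk2, length_map, (hG _).len]
  have hshift : ∀ ω h, Cl (2 * h * k * ℓ) ((List.range (b * k)).flatMap (blk ω))
      ((List.range (b * k)).flatMap (blk (S h ω))) := by
    intro ω h
    have e1 : (List.range (b * k)).flatMap (blk (S h ω)) =
        (range' (h * k) (b * k)).flatMap (blk ω) := by
      rw [range'_eq_map_range, flatMap_map]
      congr 1
      ext1 s
      exact hblkS h ω s
    have hl : ∀ a, ((range' a (h * k)).flatMap (blk ω)).length = h * k * ℓ := fun a => by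
      rw [length_flatMap_const _ ℓ _ fun s _ => hblen ω s, length_range', mul_comm]
    have c1 := (Cl.refl 0 ((range' 0 (b * k)).flatMap (blk ω))).append
      (Cl.nil ((range' (0 + b * k) (h * k)).flatMap (blk ω)))
    have c2 := (Cl.nil ((range' 0 (h * k)).flatMap (blk ω))).append
      (Cl.refl 0 ((range' (0 + h * k) (b * k)).flatMap (blk ω)))
    rw [← flatMap_append, range'_append_1, hl] at c1 c2
    rw [append_nil] at c1
    rw [nil_append, zero_add, add_comm (h * k)] at c2
    rw [e1, range_eq_range']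
    exact (c1.trans c2.symm).mono (le_of_eq (by ring))
  refine ⟨(∀ i, Ω i) × Fin q, inferInstance, ⟨(fun i => Classical.arbitrary _, ⟨0, hq⟩)⟩,
    fun a => sig (a * N), fun x => (List.range (b * k)).flatMap (blk x.1), ?_, ?_, hsigper,
    ?_, ?_, ?_, ?_⟩
  · intro x; rw [zero_mul, hsig0]
  · intro a a' x; rw [add_mul, hsigadd]
  · intro x
    rw [length_flatMap_const _ ℓ _ fun s _ => hblen _ s, length_range, mul_comm]
  · intro x σ hσ
    obtain ⟨s, -, hs⟩ := mem_flatMap.mp hσ
    rw [hblk, hblk2] at hs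
    obtain ⟨σ', h1, rfl⟩ := mem_map.mp hs
    have h2 := (hG _).sym _ _ h1
    have h3 := (col s).2
    have h4 : (σ' + 1) * k ≤ Sg * k := Nat.mul_le_mul_right k h2
    rw [add_mul] at h4
    omega
  · intro x a a' haa z hz hz'
    rw [hsig] at hz hz'
    obtain ⟨h1, hh1⟩ : ∃ h1, h1 = (x.2 + a * N) / q := ⟨_, rfl⟩
    obtain ⟨h2, hh2⟩ : ∃ h2, h2 = (x.2 + a' * N) / q := ⟨_, rfl⟩
    simp only [← hh1] at hz
    simp only [← hh2] at hz'
    refine block_far k b g hk _ _ ℓ F hF hFl
      (fun t t' i => ∃ hi : i < k, t + h1 ≡ t' + h2 [MOD p ⟨i, hi⟩]) ?_ ?_ z hz hz'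
    · intro t t' ht ht'
      obtain ⟨G, hGd⟩ : ∃ G : Finset (Fin k),
          G = Finset.univ.filter fun i => t + h1 ≡ t' + h2 [MOD p i] := ⟨_, rfl⟩
      refine le_trans (Finset.card_le_card (t := G.image Fin.val) fun i hi => ?_)
        (Finset.card_image_le.trans ?_)
      · simp only [Finset.mem_filter] at hi
        obtain ⟨hi1, hi2⟩ := hi.2
        exact Finset.mem_image.mpr ⟨⟨i, hi1⟩, by rw [hGd]; simpa using hi2, rfl⟩
      have d1 := Nat.div_add_mod (x.2 + a * N) q
      have d2 := Nat.div_add_mod (x.2 + a' * N) q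
      have m1 := Nat.mod_lt (x.2 + a * N) hq
      have m2 := Nat.mod_lt (x.2 + a' * N) hq
      rw [← hh1] at d1
      rw [← hh2] at d2
      obtain ⟨r1, hr1⟩ : ∃ r1, r1 = (x.2 + a * N) % q := ⟨_, rfl⟩
      obtain ⟨r2, hr2⟩ : ∃ r2, r2 = (x.2 + a' * N) % q := ⟨_, rfl⟩
      rw [← hr1] at d1 m1
      rw [← hr2] at d2 m2
      obtain ⟨e, he⟩ : ∃ e : ℤ, e = q * ((t' : ℤ) - t) - r2 + r1 := ⟨_, rfl⟩
      have d1' : (q : ℤ) * h1 + r1 = x.2 + a * N := by exact_mod_cast d1
      have d2' : (q : ℤ) * h2 + r2 = x.2 + a' * N := by exact_mod_cast d2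
      have he2 : e = q * (((t' + h2 : ℕ) : ℤ) - (t + h1 : ℕ)) - ((a' : ℤ) - a) * N := by
        push_cast; rw [he]; linarith
      have he0 : e ≠ 0 := by
        intro h0
        apply haa
        rw [Nat.modEq_iff_dvd]
        have h3 : (q : ℤ) ∣ ((a' : ℤ) - a) * N :=
          ⟨((t' + h2 : ℕ) : ℤ) - (t + h1 : ℕ), by rw [h0] at he2; linarith⟩
        refine IsCoprime.dvd_of_dvd_mul_right ?_ h3
        rw [Nat.isCoprime_iff_coprime, hN]
        exact Nat.Coprime.prod_right fun i _ => hqcop i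
      have hdv : ∏ i ∈ G, p i ∣ e.natAbs := by
        refine Finset.prod_dvd_of_isRelPrime (fun i _ j _ hij =>
          Nat.coprime_iff_isRelPrime.mp (hcop hij)) fun i hi => ?_
        rw [hGd, Finset.mem_filter, Nat.modEq_iff_dvd] at hi
        rw [← Int.natCast_dvd, he2]
        exact dvd_sub (hi.2.mul_left _) ((Int.natCast_dvd_natCast.mpr (hpN i)).mul_left _)
      have hle := Nat.le_of_dvd (Int.natAbs_pos.mpr he0) hdv
      have hlt : e.natAbs < q * (b + 1) := by
        have t1 : (q : ℤ) * ((t' : ℤ) - t) ≤ q * b :=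
          mul_le_mul_of_nonneg_left (by omega) (by positivity)
        have t2 : (q : ℤ) * (-b) ≤ q * ((t' : ℤ) - t) :=
          mul_le_mul_of_nonneg_left (by omega) (by positivity)
        zify
        rw [abs_lt]
        constructor <;> linarith [(Nat.cast_lt (α := ℤ)).mpr m1, (Nat.cast_lt (α := ℤ)).mpr m2,
          Nat.cast_nonneg (α := ℤ) r1, Nat.cast_nonneg (α := ℤ) r2]
      have hpow : A ^ G.card ≤ ∏ i ∈ G, p i := Finset.pow_card_le_prod _ _ _ fun i _ => hAp i
      have := (Nat.pow_lt_pow_iff_right (by omega : 1 < A)).mp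
        (lt_of_le_of_lt (hpow.trans hle) (hlt.trans_le hb))
      omega
    · intro s s' z hz hz'
      rw [hblk, hblk2S, hblk2] at hz hz'
      by_cases hss : s % k = s' % k
      · rw [if_pos hss]
        have hc : col s' = col s := by ext; rw [hcolv, hcolv, hss]
        rw [hc] at hz'
        obtain ⟨z1, a1, rfl⟩ := sublist_map_iff.mp hz
        obtain ⟨z2, a2, a3⟩ := sublist_map_iff.mp hz'
        have a4 : z1 = z2 := (map_inj_right fun σ σ' hσ =>
          Nat.eq_of_mul_eq_mul_right hk0 (Nat.add_right_cancel hσ)).mp a3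
        subst a4
        rw [length_map]
        split_ifs with hgood
        · have := a1.length_le
          rw [(hG _).len] at this
          exact_mod_cast this
        · refine (hG _).far _ _ _ (fun hm => hgood ⟨Nat.mod_lt _ hk0, ?_⟩) z1 a1 a2
          rw [← hcol]; exact hm
      · rw [if_neg hss]
        cases z with
        | nil => simp
        | cons σ z =>
          exfalso
          obtain ⟨σ1, -, e1⟩ := mem_map.mp (hz.subset mem_cons_self)
          obtain ⟨σ2, -, e2⟩ := mem_map.mp (hz'.subset mem_cons_self)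
          have e3 := congrArg (· % k) (e1.trans e2.symm)
          simp only [mul_comm _ k, Nat.mul_add_mod, hcolv, Nat.mod_mod] at e3
          exact hss e3
  · intro d hd lam hlam a
    obtain ⟨n, hn⟩ : ∃ n : ℝ, n = Fintype.card ((∀ i, Ω i) × Fin q) := ⟨_, rfl⟩
    rw [← hn]
    have hcoord : ∀ (i : Fin k) (m : ℕ),
        ∑ x, d x (sig (q * N / p i * m) x) ≤ lam * b * Pn * n := by
      intro i m
      have e1 : q * N / p i * m = q * (N / p i * m) := by
        rw [Nat.mul_div_assoc _ (hpN i), mul_assoc]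
      have e2 : ∀ ω, S (N / p i * m) ω = Function.update ω i (act i (N / p i * m) (ω i)) := by
        intro ω
        rw [hS]
        ext j
        by_cases hj : j = i
        · subst hj; simp
        · rw [Function.update_of_ne hj]
          refine hdvd j _ _ (Dvd.dvd.mul_right ?_ m)
          refine (hcop hj).dvd_of_dvd_mul_right ?_
          rw [Nat.div_mul_cancel (hpN i)]; exact hpN j
      have h1 : ∀ (ω : ∀ i, Ω i) (r : Fin q),
          ∑ x : Ω i, d (Function.update ω i x, r)
            (Function.update ω i (act i (N / p i * m) x), r) ≤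
            lam * b * Pn * Fintype.card (Ω i) := by
        intro ω r
        refine (hG i).poin _ (hd.comp fun x => (Function.update ω i x, r)) (lam * b)
          (fun x y B hB => ?_) _
        have := hlam (Function.update ω i x, r) (Function.update ω i y, r) (b * B) fun a' => ?_
        · push_cast at this; linarith
        rw [hsig, hsig, ← sum_cols k b i B i.2]
        refine Cl.flatMap _ _ _ _ fun s _ => ?_
        simp only
        rw [hblk, hblk, hblk2S, hblk2S, hblk2, hblk2]
        split_ifs with hs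
        · have hc : col s = i := by ext; rw [hcolv, hs]
          rw [hc]
          simp only [Function.update_self]
          exact (hB _).map _
        · have hc : col s ≠ i := fun h => hs (by rw [← hcolv, h])
          rw [Function.update_of_ne hc, Function.update_of_ne hc]
          exact Cl.refl _ _
      have hc0 : (0 : ℝ) < Fintype.card (Ω i) := by exact_mod_cast Fintype.card_pos
      refine le_of_mul_le_mul_left ?_ hc0
      simp_rw [e1, hsigq, e2]
      rw [Fintype.sum_prod_type_right, Finset.mul_sum]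
      have h2 : ∀ r : Fin q, (Fintype.card (Ω i) : ℝ) * ∑ ω : ∀ i, Ω i, d (ω, r)
          (Function.update ω i (act i (N / p i * m) (ω i)), r) ≤
          Fintype.card (∀ i, Ω i) * (lam * b * Pn * Fintype.card (Ω i)) := by
        intro r
        rw [← sum_update i]
        simp only [Function.update_self, Function.update_idem]
        refine (Finset.sum_le_sum fun ω _ => h1 ω r).trans (le_of_eq ?_)
        rw [Finset.sum_const, Finset.card_univ, nsmul_eq_mul]
      refine (Finset.sum_le_sum fun r _ => h2 r).trans (le_of_eq ?_)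
      rw [Finset.sum_const, Finset.card_univ, nsmul_eq_mul, hn, Fintype.card_prod]
      push_cast
      ring
    have hsh : ∀ t : Fin (2 * P ^ w),
        ∑ x, d x (sig t x) ≤ lam * (2 * (2 * P ^ w) * k * ℓ : ℕ) * n := by
      intro t
      have h1 : ∀ x, d x (sig t x) ≤ lam * (2 * (2 * P ^ w) * k * ℓ : ℕ) := by
        intro x
        refine hlam _ _ _ fun a' => ?_
        rw [← hsigadd, add_comm, hsigadd, hsig t]
        refine (hshift _ _).mono ?_
        have h2 : ((sig (a' * N) x).2 + t : ℕ) / q ≤ 2 * P ^ w := by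
          apply Nat.div_le_of_le_mul
          have h3 := (sig (a' * N) x).2.2
          have h4 : (t : ℕ) < 2 * P ^ w := t.2
          obtain ⟨T, hT⟩ : ∃ T, 2 * P ^ w = T + 1 := ⟨2 * P ^ w - 1, by omega⟩
          have h5 : T ≤ q * T := Nat.le_mul_of_pos_left T hq
          have h6 : q * (2 * P ^ w) = q * T + q := by rw [hT]; ring
          omega
        exact Nat.mul_le_mul_right _ (Nat.mul_le_mul_right _ (Nat.mul_le_mul_left _ h2))
      refine (Finset.sum_le_sum fun x _ => h1 x).trans (le_of_eq ?_)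
      rw [Finset.sum_const, Finset.card_univ, nsmul_eq_mul, hn, mul_comm]
    have key := act_nonneg sig hsig0 hsigadd (q * N) (Nat.mul_pos hq hN0) hsigper
      (H := Unit ⊕ ((Σ i : Fin k, Fin (p i)) ⊕ Fin (2 * P ^ w)))
      (Sum.elim (fun _ => -1) (Sum.elim (fun j => 2 / w / p j.1) fun _ => 4 / (2 * P ^ w : ℕ)))
      (Sum.elim (fun _ => a * N) (Sum.elim (fun j => q * N / p j.1 * j.2) fun t => t))
      (fun ζ hζ => by
        have := multiplier p q P w hq hp hcop hqP hpP hw (a * N) ζ (hN ▸ hζ)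
        rw [← hN] at this
        simp only [Fintype.sum_sum_type, Fintype.sum_sigma, Sum.elim_inl, Sum.elim_inr,
          Finset.univ_unique, Finset.sum_singleton]
        linarith) d hd
    simp only [Fintype.sum_sum_type, Fintype.sum_sigma, Sum.elim_inl, Sum.elim_inr,
      Finset.univ_unique, Finset.sum_singleton] at key
    have hw' : (0 : ℝ) < w := by exact_mod_cast hw
    have hP0 : 0 < P := hq.trans_le hqP
    have t1 : ∑ i : Fin k, ∑ m : Fin (p i), (2 / w / p i : ℝ) *
        ∑ x, d x (sig (q * N / p i * m) x) ≤ k * (2 / w * (lam * b * Pn * n)) := by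
      refine (Finset.sum_le_sum fun i _ => Finset.sum_le_sum fun (m : Fin (p i)) _ =>
        mul_le_mul_of_nonneg_left (hcoord i m)
          (show (0 : ℝ) ≤ 2 / w / p i by positivity)).trans (le_of_eq ?_)
      have : ∀ i : Fin k, ∑ _m : Fin (p i), (2 / w / p i : ℝ) * (lam * b * Pn * n) =
          2 / w * (lam * b * Pn * n) := by
        intro i
        have : (0 : ℝ) < p i := by exact_mod_cast hp i
        rw [Finset.sum_const, Finset.card_univ, Fintype.card_fin, nsmul_eq_mul]
        field_simp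
      simp_rw [this]
      simp
    have t2 : ∑ t : Fin (2 * P ^ w), (4 / (2 * P ^ w : ℕ) : ℝ) * ∑ x, d x (sig t x) ≤
        4 * (lam * (2 * (2 * P ^ w) * k * ℓ : ℕ) * n) := by
      refine (Finset.sum_le_sum fun t _ =>
        mul_le_mul_of_nonneg_left (hsh t) (by positivity)).trans (le_of_eq ?_)
      rw [Finset.sum_const, Finset.card_univ, Fintype.card_fin, nsmul_eq_mul]
      have : (0 : ℝ) < (2 * P ^ w : ℕ) := by positivity
      field_simp
    push_cast at t2 key
    have t3 : ∑ x, d x (sig (a * N) x) ≤ lam * (2 / w * k * b * Pn + 16 * P ^ w * k * ℓ) * n := by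
      linarith
    exact t3

end Crest.Agent.R210
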